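import Vale.Agent.P146.H875.X2

/-!
# P146, block 16-BRX: the row at a fixed frozen point

For a fixed point `z` of the frozen coordinates `K1` the row density, the row magnetisations and
their gradients, as functions of the remaining coordinates `z'` (at `glue K1 z z'`): partial
derivatives, continuity, growth, parity, bounds, and the passage from integrals in `z'` to
conditional means given `K1`.
-/

open MeasureTheory ProbabilityTheory Filter Topology

namespace Vale.Agent.P146.H875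

open Vale.Agent.P157.Lv hiding Dep
open Vale.Agent.P146.H196 Vale.Agent.P146.H646 Vale.Agent.P146.H475 Vale.Agent.P146.H347
  Vale.Agent.P146.H487 Vale.Agent.P146.H325 Vale.Agent.P146.H205

set_option linter.unusedSectionVars false

/-! ### continuity of the conditional means -/

section cont

variable {ι : Type} [Fintype ι] [DecidableEq ι] {F w Ψ : (ι → ℝ) → ℝ}

lemma continuous_glue_left (K : Finset ι) (z' : ι → ℝ) : Continuous fun z => glue K z z' := by
  refine continuous_pi fun e => ?_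
  by_cases h : e ∈ K
  · simp only [glue, h, if_true]
    exact continuous_apply e
  · simp only [glue, h, if_false]
    exact continuous_const

lemma continuous_glue_right (K : Finset ι) (z : ι → ℝ) : Continuous fun z' => glue K z z' := by
  refine continuous_pi fun e => ?_
  by_cases h : e ∈ K
  · simp only [glue, h, if_true]
    exact continuous_const
  · simp only [glue, h, if_false]
    exact continuous_apply e

lemma cont_int_glue (hc : Continuous F) (hF : EG F) (K : Finset ι) :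
    Continuous fun z => ∫ z', F (glue K z z') ∂(gI ι) := by
  obtain ⟨C, a, hC, ha, hb⟩ := hF.bdd
  rw [continuous_iff_continuousAt]
  intro z0
  refine continuousAt_of_dominated
    (bound := fun z' : ι → ℝ => C * Real.exp (a * (‖z0‖ + 1)) * Real.exp (a * ‖z'‖))
    (Filter.Eventually.of_forall fun z =>
      (hc.comp (continuous_glue_right K z)).aestronglyMeasurable) ?_ ?_
    (Filter.Eventually.of_forall fun z' =>
      (hc.comp (continuous_glue_left K z')).continuousAt)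
  · filter_upwards [Metric.ball_mem_nhds z0 one_pos] with z hz
    refine Filter.Eventually.of_forall fun z' => ?_
    rw [Real.norm_eq_abs]
    refine (hb _).trans ?_
    rw [mul_assoc, ← Real.exp_add, ← mul_add]
    refine mul_le_mul_of_nonneg_left (Real.exp_le_exp.2 (mul_le_mul_of_nonneg_left ?_ ha)) hC
    refine (H487.norm_glue_le K z z').trans ?_
    have h1 : ‖z‖ ≤ ‖z0‖ + 1 := by
      have h2 : ‖z - z0‖ < 1 := by simpa [dist_eq_norm] using hz
      have h3 := norm_add_le z0 (z - z0)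
      rw [add_sub_cancel] at h3
      linarith
    linarith
  · exact (integrable_exp_norm (ι := ι) a).const_mul _

lemma cont_wn (hc : Continuous w) (hw : EG w) (K : Finset ι) : Continuous (wn (g1 ι) K w) :=
  cont_int_glue hc hw K

lemma cont_cx (hw : Wt (g1 ι) w) (hc : Continuous w) (ew : EG w) (hΨ : Continuous Ψ)
    (eΨ : EG Ψ) (K : Finset ι) : Continuous (cx (g1 ι) K w Ψ) := by
  unfold cx
  exact (cont_int_glue (F := fun z => w z * Ψ z) (hc.mul hΨ) (ew.mul eΨ) K).div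
    (cont_wn hc ew K) fun z => (hw.wn_pos K z).ne'

end cont

section gibbs

variable {ι : Type} [Fintype ι] [DecidableEq ι] {Ω : Type} [MeasurableSpace Ω]
  {m : Measure Ω} {S : ι → Ω → ℝ} {M0 x : ℝ} {h h0 : Ω → ℝ}

variable (hG : GM m S M0)
include hG

lemma cont_N (x : ℝ) (K : Finset ι) (hh : Bm h) :
    Continuous (cx (g1 ι) K (Zxm m 1 S x) (avm m 1 S h)) :=
  cont_cx (H347.wt hG 1 x) (hG.cont_Zx 1 x) (hG.eg_Zx 1 x) (hG.cont_av 1 hh) (hG.eg_av 1 hh) K

lemma cont_NN (x : ℝ) (K : Finset ι) (hh : Bm h) (hh0 : Bm h0) :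
    Continuous (cx (g1 ι) K (Zxm m 1 S x) (fun y => avm m 1 S h y * avm m 1 S h0 y)) :=
  cont_cx (H347.wt hG 1 x) (hG.cont_Zx 1 x) (hG.eg_Zx 1 x)
    ((hG.cont_av 1 hh).mul (hG.cont_av 1 hh0)) ((hG.eg_av 1 hh).mul (hG.eg_av 1 hh0)) K

lemma cont_gu (x : ℝ) (K : Finset ι) (e : ι) : Continuous (gu m S K (Zxm m 1 S x) e) :=
  cont_N hG x K (hG.bS e)

lemma cont_gN (x : ℝ) (K : Finset ι) (hh : Bm h) (e : ι) :
    Continuous (gN m S K (Zxm m 1 S x) x h e) :=
  ((cont_N hG x K (hh.mul (hG.bS e))).sub ((cont_NN hG x K hh (hG.bS e)).const_mul _)).sub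
    (((cont_N hG x K hh).mul (cont_N hG x K (hG.bS e))).const_mul _)

lemma cont_Uf (x : ℝ) (K : Finset ι) (hh : Bm h) (hh0 : Bm h0) :
    Continuous (Uf m S K (Zxm m 1 S x) x h h0) :=
  (continuous_const.sub ((cont_NN hG x K hh hh0).const_mul _)).sub
    (((cont_N hG x K hh).pow 2).const_mul _)

/-- the bound of the gradient of the density -/
lemma sum_gu_le (K R : Finset ι) {L : ℝ} (hL : ∀ ω, ∑ e ∈ R, S e ω ^ 2 ≤ L) (x : ℝ)
    (z : ι → ℝ) : ∑ e ∈ R, gu m S K (Zxm m 1 S x) e z ^ 2 ≤ L := by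
  have hw : Wt (g1 ι) (Zxm m 1 S x) := H347.wt hG 1 x
  have bS : ∀ e, BM (avm m 1 S (S e)) := fun e => H347.bm hG 1 (hG.bS e)
  have b2 : ∀ e, BM (fun y => avm m 1 S (S e) y ^ 2) := fun e => BM.sq' (bS e)
  refine (Finset.sum_le_sum fun e _ => cx_sq_le hw (bS e) z).trans ?_
  rw [← cx_sum hw R (fun e _ => b2 e) z]
  have h1 : ∀ y, ∑ e ∈ R, avm m 1 S (S e) y ^ 2 ≤ L := by
    intro y
    refine (Finset.sum_le_sum fun e _ => hG.av_sq_le 1 (hG.bS e) y).trans ?_
    rw [← hG.av_sum 1 R fun e _ => (hG.bS e).pow 2]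
    have h2 := hG.av_mono 1 (Bm.sum R fun e _ => (hG.bS e).pow 2) (Bm.const L) hL y
    rwa [hG.av_const] at h2
  have h2 := cx_mono hw (K := K) (BM.sum R fun e _ => b2 e) (BM.const L) h1 z
  refine h2.trans (le_of_eq ?_)
  exact cx_dep hw (K := K) (Q := fun _ => L) (fun _ _ => rfl) z

/-- the bound of the gradient of the magnetisation -/
lemma sum_gN_le (K R : Finset ι) {L : ℝ} (hL : ∀ ω, ∑ e ∈ R, S e ω ^ 2 ≤ L) (hx0 : 0 ≤ x)
    (hx1 : x ≤ 1) (hh : Bm h) {C0 : ℝ} (hC : ∀ ω, |h ω| ≤ C0)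
    (z : ι → ℝ) : ∑ e ∈ R, gN m S K (Zxm m 1 S x) x h e z ^ 2 ≤ 6 * C0 ^ 2 * L := by
  have hw : Wt (g1 ι) (Zxm m 1 S x) := H347.wt hG 1 x
  have bS : ∀ e, BM (avm m 1 S (S e)) := fun e => H347.bm hG 1 (hG.bS e)
  have bh := H347.bm hG 1 hh
  have b2 : ∀ e, BM (avm m 1 S (fun ω => S e ω ^ 2)) := fun e => H347.bm hG 1 ((hG.bS e).pow 2)
  set A : ι → ℝ := fun e => cx (g1 ι) K (Zxm m 1 S x) (avm m 1 S (fun ω => S e ω ^ 2)) z with hA
  -- the three terms
  have t3 : ∀ e, cx (g1 ι) K (Zxm m 1 S x) (avm m 1 S (S e)) z ^ 2 ≤ A e := fun e => by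
    refine (cx_sq_le hw (bS e) z).trans (cx_mono hw (BM.sq' (bS e)) (b2 e) (fun y => ?_) z)
    exact hG.av_sq_le 1 (hG.bS e) y
  have t1 : ∀ e, cx (g1 ι) K (Zxm m 1 S x) (avm m 1 S (fun ω => h ω * S e ω)) z ^ 2 ≤
      C0 ^ 2 * A e := fun e => by
    have b1 := H347.bm hG 1 (hh.mul (hG.bS e))
    refine (cx_sq_le hw b1 z).trans ?_
    rw [hA]
    simp only
    rw [← cx_const_mul hw]
    refine cx_mono hw (BM.sq' b1) ((BM.const _).mul (b2 e)) (fun y => ?_) z
    refine (hG.av_sq_le 1 (hh.mul (hG.bS e)) y).trans ?_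
    rw [← H196.av_mul]
    refine hG.av_mono 1 ((hh.mul (hG.bS e)).pow 2) (((hG.bS e).pow 2).const_mul _) (fun ω => ?_) y
    rw [mul_pow]
    refine mul_le_mul_of_nonneg_right ?_ (sq_nonneg _)
    rw [← sq_abs]
    exact pow_le_pow_left₀ (abs_nonneg _) (hC ω) 2
  have t2 : ∀ e, cx (g1 ι) K (Zxm m 1 S x) (fun y => avm m 1 S h y * avm m 1 S (S e) y) z ^ 2 ≤
      C0 ^ 2 * A e := fun e => by
    refine (cx_sq_le hw (bh.mul (bS e)) z).trans ?_
    rw [hA]
    simp only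
    rw [← cx_const_mul hw]
    refine cx_mono hw (BM.sq' (bh.mul (bS e))) ((BM.const _).mul (b2 e)) (fun y => ?_) z
    show (avm m 1 S h y * avm m 1 S (S e) y) ^ 2 ≤ _
    rw [mul_pow]
    refine mul_le_mul ?_ (hG.av_sq_le 1 (hG.bS e) y) (sq_nonneg _) (sq_nonneg _)
    rw [← sq_abs]
    exact pow_le_pow_left₀ (abs_nonneg _) (hG.abs_av_le 1 hh.1 hC y) 2
  have hN : cx (g1 ι) K (Zxm m 1 S x) (avm m 1 S h) z ^ 2 ≤ C0 ^ 2 := by
    rw [← sq_abs]
    exact pow_le_pow_left₀ (abs_nonneg _) (hw.abs_cx_le K bh (hG.abs_av_le 1 hh.1 hC) z) 2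
  have hA0 : ∀ e, 0 ≤ A e := fun e => (sq_nonneg _).trans (t3 e)
  have h1 : ∀ e ∈ R, gN m S K (Zxm m 1 S x) x h e z ^ 2 ≤ 6 * C0 ^ 2 * A e := by
    intro e _
    unfold gN
    set a1 := cx (g1 ι) K (Zxm m 1 S x) (avm m 1 S (fun ω => h ω * S e ω)) z with ha1
    set a2 := cx (g1 ι) K (Zxm m 1 S x) (fun y => avm m 1 S h y * avm m 1 S (S e) y) z with ha2
    set a3 := cx (g1 ι) K (Zxm m 1 S x) (avm m 1 S (S e)) z with ha3
    set N := cx (g1 ι) K (Zxm m 1 S x) (avm m 1 S h) z with hNd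
    have u1 : a1 ^ 2 ≤ C0 ^ 2 * A e := t1 e
    have u2 : a2 ^ 2 ≤ C0 ^ 2 * A e := t2 e
    have u3 : (N * a3) ^ 2 ≤ C0 ^ 2 * A e := by
      rw [mul_pow]
      exact mul_le_mul hN (t3 e) (sq_nonneg _) (sq_nonneg _)
    have h2 : (a1 - (1 - x) * a2 - x * (N * a3)) ^ 2 ≤
        3 * (a1 ^ 2 + (1 - x) ^ 2 * a2 ^ 2 + x ^ 2 * (N * a3) ^ 2) := by
      nlinarith [sq_nonneg (a1 + (1 - x) * a2), sq_nonneg (a1 + x * (N * a3)),
        sq_nonneg ((1 - x) * a2 - x * (N * a3))]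
    have h3 : (1 - x) ^ 2 + x ^ 2 ≤ 1 := by nlinarith
    have h4 := mul_le_mul_of_nonneg_left u2 (sq_nonneg (1 - x))
    have h5 := mul_le_mul_of_nonneg_left u3 (sq_nonneg x)
    have h6 := mul_le_mul_of_nonneg_right h3 (mul_nonneg (sq_nonneg C0) (hA0 e))
    nlinarith
  refine (Finset.sum_le_sum h1).trans ?_
  rw [← Finset.mul_sum]
  refine mul_le_mul_of_nonneg_left ?_ (by positivity)
  rw [hA]
  rw [← cx_sum hw R (fun e _ => b2 e) z]
  have h1 : ∀ y, ∑ e ∈ R, avm m 1 S (fun ω => S e ω ^ 2) y ≤ L := by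
    intro y
    rw [← hG.av_sum 1 R fun e _ => (hG.bS e).pow 2]
    have h2 := hG.av_mono 1 (Bm.sum R fun e _ => (hG.bS e).pow 2) (Bm.const L) hL y
    rwa [hG.av_const] at h2
  have h2 := cx_mono hw (K := K) (BM.sum R fun e _ => b2 e) (BM.const L) h1 z
  refine h2.trans (le_of_eq ?_)
  exact cx_dep hw (K := K) (Q := fun _ => L) (fun _ _ => rfl) z

end gibbs

/-! ### the frozen functions -/

section froz

variable {ι : Type} [Fintype ι] [DecidableEq ι] {Ω : Type} [MeasurableSpace Ω]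
  {m : Measure Ω} {S : ι → Ω → ℝ} {M0 x : ℝ} {h : Ω → ℝ}

/-- the row density at the frozen point -/
noncomputable def Wz (K1 K1' : Finset ι) (w : (ι → ℝ) → ℝ) (z z' : ι → ℝ) : ℝ :=
  wn (g1 ι) K1' w (glue K1 z z') / wn (g1 ι) K1 w z

lemma Wz_pos {w : (ι → ℝ) → ℝ} (hw : Wt (g1 ι) w) (K1 K1' : Finset ι) (z z' : ι → ℝ) :
    0 < Wz K1 K1' w z z' := div_pos (hw.wn_pos K1' _) (hw.wn_pos K1 z)

/-- integrals against the row density are conditional means -/
theorem int_Wz {w Ψ : (ι → ℝ) → ℝ} (hw : Wt (g1 ι) w) {K1 K1' : Finset ι} (hK : K1 ⊆ K1')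
    (hd : H646.Dep K1' Ψ) (hb : BM Ψ) (z : ι → ℝ) :
    ∫ z', Wz K1 K1' w z z' * Ψ (glue K1 z z') ∂(gI ι) = cx (g1 ι) K1 w Ψ z := by
  have h1 := int_wn_glue hw hK hd hb z
  have h2 := (hw.wn_pos K1 z).ne'
  unfold Wz
  have e1 : (fun z' => wn (g1 ι) K1' w (glue K1 z z') / wn (g1 ι) K1 w z * Ψ (glue K1 z z')) =
      fun z' => (wn (g1 ι) K1 w z)⁻¹ * (wn (g1 ι) K1' w (glue K1 z z') * Ψ (glue K1 z z')) := by
    funext z'
    ring
  rw [e1, integral_const_mul]
  refine (congrArg (fun t => (wn (g1 ι) K1 w z)⁻¹ * t) h1).trans ?_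
  rw [← mul_assoc, inv_mul_cancel₀ h2, one_mul]

theorem int_Wz_one {w : (ι → ℝ) → ℝ} (hw : Wt (g1 ι) w) {K1 K1' : Finset ι} (hK : K1 ⊆ K1')
    (z : ι → ℝ) : ∫ z', Wz K1 K1' w z z' ∂(gI ι) = 1 := by
  have h1 := int_Wz (Ψ := fun _ => 1) hw hK (fun _ _ => rfl) (BM.const 1) z
  simpa only [mul_one, cx_one hw z] using h1

variable (hG : GM m S M0)
include hG

lemma eg_wn (x : ℝ) (K : Finset ι) : EG (wn (g1 ι) K (Zxm m 1 S x)) := by
  have := (hG.eg_Zx 1 x).J (H161.lvK K) 0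
  rwa [← wn_eq_J] at this

lemma eg_Wz (x : ℝ) (K1 K1' : Finset ι) (z : ι → ℝ) : EG (Wz K1 K1' (Zxm m 1 S x) z) := by
  have h1 := (H487.eg_glue (eg_wn hG x K1') K1 z).const_mul (wn (g1 ι) K1 (Zxm m 1 S x) z)⁻¹
  have e : Wz K1 K1' (Zxm m 1 S x) z = fun z' => (wn (g1 ι) K1 (Zxm m 1 S x) z)⁻¹ *
      wn (g1 ι) K1' (Zxm m 1 S x) (glue K1 z z') := by
    funext z'
    unfold Wz
    ring
  rw [e]
  exact h1

/-- the gradient of the row density -/
theorem pd_Wz (x : ℝ) {K1 K1' : Finset ι} (z : ι → ℝ) (e : ι) :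
    PD e (Wz K1 K1' (Zxm m 1 S x) z) (fun z' => x * (Wz K1 K1' (Zxm m 1 S x) z z' *
      onA (K1' \ K1) (gu m S K1' (Zxm m 1 S x)) e (glue K1 z z'))) := by
  have h1 := pd_frozen (K := K1) (K' := K1') (f := wn (g1 ι) K1' (Zxm m 1 S x))
    (f' := fun e z => x * (wn (g1 ι) K1' (Zxm m 1 S x) z * gu m S K1' (Zxm m 1 S x) e z))
    (dep_wn K1') (fun e he => pd_wnx hG x (Finset.mem_sdiff.1 he).1) z e
  have h2 := h1.const_mul (wn (g1 ι) K1 (Zxm m 1 S x) z)⁻¹
  have e1 : Wz K1 K1' (Zxm m 1 S x) z = fun z' => (wn (g1 ι) K1 (Zxm m 1 S x) z)⁻¹ *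
      wn (g1 ι) K1' (Zxm m 1 S x) (glue K1 z z') := by
    funext z'
    unfold Wz
    ring
  rw [e1]
  refine h2.congr fun y => ?_
  unfold onA
  split_ifs
  · ring
  · ring

/-- the gradient of a magnetisation -/
theorem pd_Nz (x : ℝ) (K1 K' : Finset ι) (hh : Bm h) (z : ι → ℝ) (e : ι) :
    PD e (fun z' => cx (g1 ι) K' (Zxm m 1 S x) (avm m 1 S h) (glue K1 z z'))
      (fun z' => onA (K' \ K1) (gN m S K' (Zxm m 1 S x) x h) e (glue K1 z z')) :=
  pd_frozen (dep_cx K') (fun _ he => pd_N hG x (Finset.mem_sdiff.1 he).1 hh) z e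

omit hG in
lemma sum_ite_mul (A : Finset ι) (f g : ι → ℝ) :
    ∑ e, (if e ∈ A then f e else 0) * g e = ∑ e ∈ A, f e * g e := by
  simp only [ite_mul, zero_mul]
  rw [Finset.sum_ite_mem, Finset.univ_inter]

lemma cont_onA {A : Finset ι} {f' : ι → (ι → ℝ) → ℝ} (hf : ∀ e, Continuous (f' e))
    (K1 : Finset ι) (z : ι → ℝ) (e : ι) : Continuous fun z' => onA A f' e (glue K1 z z') := by
  unfold onA
  by_cases he : e ∈ A
  · simp only [he, if_true]
    exact (hf e).comp (continuous_glue_right K1 z)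
  · simp only [he, if_false]
    exact continuous_const

omit hG in
/-- integrals against the row density, integrands of exponential growth -/
theorem int_Wz_eg {w Ψ : (ι → ℝ) → ℝ} (hw : Wt (g1 ι) w) (ew : EG w) {K1 K1' : Finset ι}
    (hK : K1 ⊆ K1') (hd : H646.Dep K1' Ψ) (eΨ : EG Ψ) (z : ι → ℝ) :
    ∫ z', Wz K1 K1' w z z' * Ψ (glue K1 z z') ∂(gI ι) = cx (g1 ι) K1 w Ψ z := by
  have h2 := (hw.wn_pos K1 z).ne'
  have e0 : ∀ z', wn (g1 ι) K1' w (glue K1 z z') * Ψ (glue K1 z z') =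
      ∫ z'', w (glue K1 z (glue K1' z' z'')) * Ψ (glue K1 z (glue K1' z' z'')) ∂(gI ι) := by
    intro z'
    unfold wn
    rw [← integral_mul_const]
    refine integral_congr_ae (Filter.Eventually.of_forall fun z'' => ?_)
    show w (glue K1' (glue K1 z z') z'') * Ψ (glue K1 z z') = _
    rw [← hd (glue K1 z z') z'', glue_glue_of_subset hK]
  have e1 : (fun z' => Wz K1 K1' w z z' * Ψ (glue K1 z z')) =
      fun z' => (wn (g1 ι) K1 w z)⁻¹ *
        ∫ z'', w (glue K1 z (glue K1' z' z'')) * Ψ (glue K1 z (glue K1' z' z'')) ∂(gI ι) := by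
    funext z'
    rw [← e0]
    unfold Wz
    ring
  rw [e1, integral_const_mul]
  have h3 := integral_glue (g1 ι) K1' (f := fun y => w (glue K1 z y) * Ψ (glue K1 z y))
    (H487.eg_glue (ew.mul eΨ) K1 z).integrable
  refine (congrArg (fun t => (wn (g1 ι) K1 w z)⁻¹ * t) h3).trans ?_
  unfold cx
  rw [div_eq_inv_mul]

omit hG in
/-- the errors at the frozen point are conditional means -/
theorem int_err {w : (ι → ℝ) → ℝ} (hw : Wt (g1 ι) w) {K1 K1' A : Finset ι} (hK : K1 ⊆ K1')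
    {g : ι → (ι → ℝ) → ℝ} {P : (ι → ℝ) → ℝ} {a : ι → (ι → ℝ) → ℝ}
    (dg : ∀ e, H646.Dep K1' (g e)) (dP : H646.Dep K1' P) (da : ∀ e, H646.Dep K1 (a e))
    (bg : ∀ e, BM (g e)) (bP : BM P) (ba : ∀ e, BM (a e)) (z : ι → ℝ) :
    ∫ z', Wz K1 K1' w z z' * ∑ e, (onA A g e (glue K1 z z') -
      P (glue K1 z z') * (if e ∈ A then a e z else 0)) ^ 2 ∂(gI ι) =
      cx (g1 ι) K1 w (fun y => ∑ e ∈ A, (g e y - P y * a e y) ^ 2) z := by
  rw [← int_Wz hw hK]
  · refine integral_congr_ae (Filter.Eventually.of_forall fun z' => ?_)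
    simp only
    congr 1
    rw [← Finset.sum_filter_add_sum_filter_not Finset.univ (· ∈ A)]
    rw [Finset.sum_congr rfl (g := fun e => (g e (glue K1 z z') -
        P (glue K1 z z') * a e (glue K1 z z')) ^ 2) (fun e he => by
        unfold onA
        rw [if_pos (Finset.mem_filter.1 he).2, if_pos (Finset.mem_filter.1 he).2, da e z z']),
      Finset.sum_congr rfl (s₁ := Finset.univ.filter fun e => ¬ e ∈ A) (g := fun _ => (0 : ℝ))
        (fun e he => by
          unfold onA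
          rw [if_neg (Finset.mem_filter.1 he).2, if_neg (Finset.mem_filter.1 he).2]
          ring)]
    rw [Finset.sum_const_zero, add_zero]
    congr 1
    ext e; simp
  · intro y y'
    refine Finset.sum_congr rfl fun e _ => ?_
    rw [dg e y y', dP y y', (da e).mono hK y y']
  · exact BM.sum _ fun e _ => BM.sq' ((bg e).sub (bP.mul (ba e)))

end froz

/-! ### the modulated SK system -/

section model

variable {n : ℕ} {LB LF : Type} [Fintype LB] [DecidableEq LB] [Fintype LF] [DecidableEq LF]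
variable (b : ℝ) (cB : LB → ℝ) (cF : LF → ℝ) (s η : ℝ) {lam : ℝ} (c x : ℝ)
variable {S : Finset (Fin n)} {i0 : Fin n} {BL BL1 BL2 : Finset LB} {FL FL1 FL2 : Finset LF}

/-- flipping the hidden site changes the sign of its row -/
lemma glue_flip (hi : i0 ∉ S) (z z' : Co n LB LF → ℝ) {e : Co n LB LF}
    (he : e ∈ Kset (insert i0 S) BL FL) :
    glue (Kset S BL FL) z (-z') e =
      ac 1 (eps LB LF (fl i0)) (glue (Kset S BL FL) z z') e := by
  have h1 : ∀ a ∈ S, fl i0 a = 1 := fun a ha => by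
    unfold fl
    rw [if_neg]
    exact fun h => hi (h ▸ ha)
  show _ = eps LB LF (fl i0) e * glue (Kset S BL FL) z z' e
  by_cases hK : e ∈ Kset S BL FL
  · rw [glue_mem hK, glue_mem hK, eps_eq_oneK _ h1 hK, one_mul]
  · rw [glue_not_mem hK, glue_not_mem hK]
    have hR : e ∈ Rw i0 S BL FL := by
      rw [Rw_eq hi]
      exact Finset.mem_sdiff.2 ⟨he, hK⟩
    have h2 : eps LB LF (fl i0) e = -1 := by
      rcases e with (⟨p, l⟩ | ⟨i, l⟩) | j
      · have h3 := (bd_memR (LF := LF) p l).1 hR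
        rw [eps_bd]
        exact SkS_fl_row h3.1.1
      · have h3 := (fd_memR (LB := LB) i l).1 hR
        rw [eps_fd, h3.1]
        exact sp_fl_self i0
      · exact absurd hR (gd_memR j)
    rw [h2]
    show -z' e = -1 * z' e
    ring

/-- a function of `Kset (insert i0 S)` with the sign `r` under the flip of `i0` -/
lemma flip_glue (hi : i0 ∉ S) {r : ℝ} {Q : (Co n LB LF → ℝ) → ℝ}
    (hd : H646.Dep (Kset (insert i0 S) BL FL) Q) (hQ : Sg (fl i0) r Q)
    (z z' : Co n LB LF → ℝ) :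
    Q (glue (Kset S BL FL) z (-z')) = r * Q (glue (Kset S BL FL) z z') := by
  rw [← hQ]
  exact Dep.congr hd fun e he => glue_flip hi z z' he

/-- the same with a smaller row -/
lemma flip_glue2 (hi : i0 ∉ S) (hB : BL2 ⊆ BL1) (hF : FL2 ⊆ FL1) {r : ℝ}
    {Q : (Co n LB LF → ℝ) → ℝ}
    (hd : H646.Dep (Kset (insert i0 S) BL2 FL2) Q) (hQ : Sg (fl i0) r Q)
    (z z' : Co n LB LF → ℝ) :
    Q (glue (Kset S BL1 FL1) z (-z')) = r * Q (glue (Kset S BL1 FL1) z z') :=
  flip_glue hi (hd.mono (Kset_mono (Finset.Subset.refl _) hB hF)) hQ z z'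

/-- the row of the smaller level set -/
lemma row_sdiff (hi : i0 ∉ S) (hB : BL2 ⊆ BL1) (hF : FL2 ⊆ FL1) :
    Kset (LB := LB) (LF := LF) (insert i0 S) BL2 FL2 \ Kset S BL1 FL1 = Rw i0 S BL2 FL2 := by
  rw [Rw_eq hi]
  ext e
  rw [Finset.mem_sdiff, Finset.mem_sdiff]
  refine and_congr_right fun he => not_congr ⟨fun h => ?_, fun h =>
    Kset_mono (Finset.Subset.refl _) hB hF h⟩
  rcases e with (⟨p, l⟩ | ⟨i, l⟩) | j
  · rw [bd_memK] at he h ⊢
    exact ⟨h.1, he.2⟩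
  · rw [fd_memK] at he h ⊢
    exact ⟨h.1, he.2⟩
  · exact absurd he (gd_memK j)

lemma sg_wn {w : (Co n LB LF → ℝ) → ℝ} (hw : InvG w) (τ : Xs n) (K : Finset (Co n LB LF)) :
    Sg τ 1 (wn (g1 _) K w) := by
  intro z
  rw [one_mul]
  unfold wn
  rw [← integral_ac 1 (eps_sq (LB := LB) (LF := LF) τ)
    (fun z' => w (glue K (ac 1 (eps LB LF τ) z) z'))]
  refine integral_congr_ae (Filter.Eventually.of_forall fun z' => ?_)
  show w (glue K (ac 1 (eps LB LF τ) z) (ac 1 (eps LB LF τ) z')) = w (glue K z z')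
  rw [← ac_glue 1 (eps LB LF τ) (K := K) (K' := K) (fun e => Iff.rfl), hw τ]

variable (hl : 0 < lam) (hη : 0 ≤ η)
include hl

/-- the row density is even -/
theorem Wz_even (hi : i0 ∉ S) (BL : Finset LB) (FL : Finset LF) (z z' : Co n LB LF → ℝ) :
    Wz (Kset S BL FL) (Kset (insert i0 S) BL FL) (Wx n b cB cF s η lam c x) z (-z') =
      Wz (Kset S BL FL) (Kset (insert i0 S) BL FL) (Wx n b cB cF s η lam c x) z z' := by
  unfold Wz
  rw [flip_glue hi (dep_wn _) (sg_wn (invG_Z b cB cF s η hl c 1 x) (fl i0) _), one_mul]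

/-- a magnetisation is odd -/
theorem Nz_odd (hi : i0 ∉ S) (hB : BL2 ⊆ BL1) (hF : FL2 ⊆ FL1) (z z' : Co n LB LF → ℝ) :
    cx (g1 _) (Kset (insert i0 S) BL2 FL2) (Wx n b cB cF s η lam c x)
        (Fa b cB cF s η lam c i0) (glue (Kset S BL1 FL1) z (-z')) =
      -cx (g1 _) (Kset (insert i0 S) BL2 FL2) (Wx n b cB cF s η lam c x)
        (Fa b cB cF s η lam c i0) (glue (Kset S BL1 FL1) z z') := by
  have h1 : Sg (fl i0) (-1) (Fa (LB := LB) (LF := LF) b cB cF s η lam c i0) := by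
    have h2 := sg_sp (LB := LB) (LF := LF) b cB cF s η hl c 1 (fl i0) (al η) i0
    rwa [sp_fl_self] at h2
  have h2 := flip_glue2 (BL1 := BL1) (FL1 := FL1) hi hB hF (dep_cx _)
    (Sg.cx (invG_Z b cB cF s η hl c 1 x) (Kset (insert i0 S) BL2 FL2) h1) z z'
  rw [h2, neg_one_mul]

omit hl in
/-- inner products of row vectors -/
lemma row_dot (hi : i0 ∉ S) (BL : Finset LB) (FL : Finset LF) (M M' : Fin n → ℝ) :
    ∑ e ∈ Rw i0 S BL FL, aR b cB cF i0 M e * aR b cB cF i0 M' e =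
      b ^ 2 / n * (∑ l ∈ BL, cB l ^ 2) * ∑ j ∈ S, M j * M' j + ∑ l ∈ FL, cF l ^ 2 := by
  rw [sum_Rw' hi _ (fun j l => b ^ 2 / n * cB l ^ 2 * (M j * M' j))]
  · congr 1
    · rw [Finset.mul_sum, Finset.mul_sum]
      refine Finset.sum_congr rfl fun j _ => ?_
      rw [Finset.sum_mul]
    · refine Finset.sum_congr rfl fun l _ => ?_
      show cF l * cF l = cF l ^ 2
      ring
  · intro p _ _ l _
    show b / √n * cB l * M (oth i0 p) * (b / √n * cB l * M' (oth i0 p)) = _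
    rw [← div_sqrt_sq]
    ring

/-- the vector of the magnetisations -/
noncomputable def Mv (n : ℕ) (b : ℝ) (cB : LB → ℝ) (cF : LF → ℝ) (s η lam c x : ℝ)
    (K : Finset (Co n LB LF)) (z : Co n LB LF → ℝ) (j : Fin n) : ℝ :=
  cx (g1 _) K (Wx n b cB cF s η lam c x) (Fa b cB cF s η lam c j) z

omit hl in
lemma dep_Mv (K : Finset (Co n LB LF)) (j : Fin n) :
    H646.Dep K (fun z => Mv n b cB cF s η lam c x K z j) := dep_cx K

include hη in
lemma bm_Mv (K : Finset (Co n LB LF)) (j : Fin n) :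
    BM (fun z => Mv n b cB cF s η lam c x K z j) :=
  (wtA b cB cF s hl hη c x).bm_cx K (bm_Fa b cB cF s η hl hη c j)

omit hl in
lemma dep_aR {K : Finset (Co n LB LF)} {M : (Co n LB LF → ℝ) → Fin n → ℝ}
    (hM : ∀ j, H646.Dep K (fun z => M z j)) (e : Co n LB LF) :
    H646.Dep K (fun z => aR b cB cF i0 (M z) e) := by
  intro z z'
  rcases e with (⟨p, l⟩ | ⟨i, l⟩) | j
  · show b / √n * cB l * M (glue K z z') (oth i0 p) = b / √n * cB l * M z (oth i0 p)
    rw [show M (glue K z z') (oth i0 p) = M z (oth i0 p) from hM (oth i0 p) z z']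
  · rfl
  · rfl

/-- the error of the row density -/
noncomputable def errU (n : ℕ) (b : ℝ) (cB : LB → ℝ) (cF : LF → ℝ) (s η lam c x : ℝ) (i0 : Fin n)
    (S : Finset (Fin n)) (BL : Finset LB) (FL : Finset LF) (z : Co n LB LF → ℝ) : ℝ :=
  ∑ e ∈ Rw i0 S BL FL, (gu (muA (Xs n) lam η c) (Sm b cB cF s η) (Kset (insert i0 S) BL FL)
      (Wx n b cB cF s η lam c x) e z - Mv n b cB cF s η lam c x (Kset (insert i0 S) BL FL) z i0 *
        aR b cB cF i0 (Mv n b cB cF s η lam c x (Kset S BL FL) z) e) ^ 2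

/-- the error of the row magnetisation -/
noncomputable def errN (n : ℕ) (b : ℝ) (cB : LB → ℝ) (cF : LF → ℝ) (s η lam c x : ℝ) (i0 : Fin n)
    (S : Finset (Fin n)) (BL : Finset LB) (FL : Finset LF) (z : Co n LB LF → ℝ) : ℝ :=
  ∑ e ∈ Rw i0 S BL FL, (gN (muA (Xs n) lam η c) (Sm b cB cF s η) (Kset (insert i0 S) BL FL)
      (Wx n b cB cF s η lam c x) x (asg n η i0) e z -
        Uf (muA (Xs n) lam η c) (Sm b cB cF s η) (Kset (insert i0 S) BL FL)
          (Wx n b cB cF s η lam c x) x (asg n η i0) (sg n i0) z *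
        aR b cB cF i0 (Mv n b cB cF s η lam c x (Kset S BL FL) z) e) ^ 2

/-- the common bound of the two errors in mean -/
noncomputable def errB (n : ℕ) (b : ℝ) (cB : LB → ℝ) (cF : LF → ℝ) (s η lam c x : ℝ) (i0 : Fin n)
    (S : Finset (Fin n)) (BL : Finset LB) (FL : Finset LF) : ℝ :=
  36 * (b ^ 2 / n * (∑ l ∈ BL, cB l ^ 2)) *
    (∑ j ∈ S, (ex (g1 _) (Wx n b cB cF s η lam c x)
        (fun z => cx (g1 _) (Kset (insert i0 S) BL FL) (Wx n b cB cF s η lam c x)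
          (Fa b cB cF s η lam c j) z ^ 2) -
      ex (g1 _) (Wx n b cB cF s η lam c x)
        (fun z => cx (g1 _) (Kset S BL FL) (Wx n b cB cF s η lam c x)
          (Fa b cB cF s η lam c j) z ^ 2)) +
      √(ex (g1 _) (Wx n b cB cF s η lam c x) (rkc (muA (Xs n) lam η c) (Sm b cB cF s η)
        (Kset (insert i0 S) BL FL) (Wx n b cB cF s η lam c x) (insert i0 S) (sg n))) +
      4 * n * η ^ 2) + 9 * (∑ l ∈ FL, cF l ^ 2) * η ^ 2

include hη in
theorem ex_errU_le (hη1 : η ≤ 1) (hi : i0 ∉ S) (BL : Finset LB) (FL : Finset LF) :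
    ex (g1 _) (Wx n b cB cF s η lam c x) (errU n b cB cF s η lam c x i0 S BL FL) ≤
      errB n b cB cF s η lam c x i0 S BL FL :=
  gradu_le b cB cF s c x hl hη hη1 hi BL FL

include hη in
theorem ex_errN_le (hη1 : η ≤ 1) (hx0 : 0 ≤ x) (hx1 : x ≤ 1) (hi : i0 ∉ S) (BL : Finset LB)
    (FL : Finset LF) :
    ex (g1 _) (Wx n b cB cF s η lam c x) (errN n b cB cF s η lam c x i0 S BL FL) ≤
      errB n b cB cF s η lam c x i0 S BL FL :=
  gradN_le b cB cF s c x hl hη hη1 hx0 hx1 hi BL FL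

include hη in
/-- (E1) at the frozen point -/
theorem E1_eq (hi : i0 ∉ S) (BL : Finset LB) (FL : Finset LF) (z : Co n LB LF → ℝ) :
    ∫ z', Wz (Kset S BL FL) (Kset (insert i0 S) BL FL) (Wx n b cB cF s η lam c x) z z' *
      ∑ e, (onA (Kset (insert i0 S) BL FL \ Kset S BL FL)
          (gu (muA (Xs n) lam η c) (Sm b cB cF s η) (Kset (insert i0 S) BL FL)
            (Wx n b cB cF s η lam c x)) e (glue (Kset S BL FL) z z') -
        Mv n b cB cF s η lam c x (Kset (insert i0 S) BL FL) (glue (Kset S BL FL) z z') i0 *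
        (if e ∈ Kset (insert i0 S) BL FL \ Kset S BL FL then
          aR b cB cF i0 (Mv n b cB cF s η lam c x (Kset S BL FL) z) e else 0)) ^ 2 ∂(gI _) =
      cx (g1 _) (Kset S BL FL) (Wx n b cB cF s η lam c x)
        (errU n b cB cF s η lam c x i0 S BL FL) z := by
  have hG := gmA (n := n) b cB cF s hl hη c
  have hw : Wt (g1 (Co n LB LF)) (Wx n b cB cF s η lam c x) := wtA b cB cF s hl hη c x
  have hKK : Kset S BL FL ⊆ Kset (LB := LB) (LF := LF) (insert i0 S) BL FL :=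
    Kset_mono (Finset.subset_insert i0 S) (Finset.Subset.refl _) (Finset.Subset.refl _)
  have h1 := int_err hw hKK (A := Kset (insert i0 S) BL FL \ Kset S BL FL)
    (g := gu (muA (Xs n) lam η c) (Sm b cB cF s η) (Kset (insert i0 S) BL FL)
            (Wx n b cB cF s η lam c x))
    (P := fun z => Mv n b cB cF s η lam c x (Kset (insert i0 S) BL FL) z i0)
    (a := fun e z => aR b cB cF i0 (Mv n b cB cF s η lam c x (Kset S BL FL) z) e)
    (fun e => dep_gu _ _ e) (dep_Mv b cB cF s η c x _ i0)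
    (fun e => dep_aR b cB cF (dep_Mv b cB cF s η c x _) e)
    (fun e => bm_gu hG hw _ e) (bm_Mv b cB cF s η c x hl hη _ i0)
    (fun e => bm_aR b cB cF (fun j => bm_Mv b cB cF s η c x hl hη _ j) e) z
  rw [h1]
  unfold errU
  rw [← Rw_eq hi]

include hη in
/-- (E2), (E3) at the frozen point: `BL ⊆ BL1`, `FL ⊆ FL1` -/
theorem E3_eq (hi : i0 ∉ S) (hB : BL ⊆ BL1) (hF : FL ⊆ FL1) (z : Co n LB LF → ℝ) :
    ∫ z', Wz (Kset S BL1 FL1) (Kset (insert i0 S) BL1 FL1) (Wx n b cB cF s η lam c x) z z' *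
      ∑ e, (onA (Kset (insert i0 S) BL FL \ Kset S BL1 FL1)
          (gN (muA (Xs n) lam η c) (Sm b cB cF s η) (Kset (insert i0 S) BL FL)
            (Wx n b cB cF s η lam c x) x (asg n η i0)) e (glue (Kset S BL1 FL1) z z') -
        Uf (muA (Xs n) lam η c) (Sm b cB cF s η) (Kset (insert i0 S) BL FL)
          (Wx n b cB cF s η lam c x) x (asg n η i0) (sg n i0) (glue (Kset S BL1 FL1) z z') *
        (if e ∈ Kset (insert i0 S) BL FL \ Kset S BL1 FL1 then
          aR b cB cF i0 (Mv n b cB cF s η lam c x (Kset S BL FL) z) e else 0)) ^ 2 ∂(gI _) =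
      cx (g1 _) (Kset S BL1 FL1) (Wx n b cB cF s η lam c x)
        (errN n b cB cF s η lam c x i0 S BL FL) z := by
  have hG := gmA (n := n) b cB cF s hl hη c
  have hw : Wt (g1 (Co n LB LF)) (Wx n b cB cF s η lam c x) := wtA b cB cF s hl hη c x
  have hKK : Kset S BL1 FL1 ⊆ Kset (LB := LB) (LF := LF) (insert i0 S) BL1 FL1 :=
    Kset_mono (Finset.subset_insert i0 S) (Finset.Subset.refl _) (Finset.Subset.refl _)
  have h21 : Kset S BL FL ⊆ Kset (LB := LB) (LF := LF) S BL1 FL1 :=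
    Kset_mono (Finset.Subset.refl _) hB hF
  have h21' : Kset (insert i0 S) BL FL ⊆ Kset (LB := LB) (LF := LF) (insert i0 S) BL1 FL1 :=
    Kset_mono (Finset.Subset.refl _) hB hF
  have h1 := int_err hw hKK (A := Kset (insert i0 S) BL FL \ Kset S BL1 FL1)
    (g := gN (muA (Xs n) lam η c) (Sm b cB cF s η) (Kset (insert i0 S) BL FL)
            (Wx n b cB cF s η lam c x) x (asg n η i0))
    (P := Uf (muA (Xs n) lam η c) (Sm b cB cF s η) (Kset (insert i0 S) BL FL)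
          (Wx n b cB cF s η lam c x) x (asg n η i0) (sg n i0))
    (a := fun e z => aR b cB cF i0 (Mv n b cB cF s η lam c x (Kset S BL FL) z) e)
    (fun e => (dep_gN _ _ x _ e).mono h21') ((dep_Uf _ _ x _ _).mono h21')
    (fun e => (dep_aR b cB cF (dep_Mv b cB cF s η c x _) e).mono h21)
    (fun e => bm_gN hG hw _ x (bm_asg (n := n) hη i0) e)
    (bm_Uf hG hw _ x (bm_asg (n := n) hη i0) (bm_sg i0))
    (fun e => bm_aR b cB cF (fun j => bm_Mv b cB cF s η c x hl hη _ j) e) z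
  rw [h1, row_sdiff hi hB hF]
  rfl

include hη in
/-- the distance to the line through the row field, at the frozen point -/
theorem lin_eq (hi : i0 ∉ S) (BL : Finset LB) (FL : Finset LF) (l : ℝ)
    (z : Co n LB LF → ℝ) :
    ∫ z', Wz (Kset S BL FL) (Kset (insert i0 S) BL FL) (Wx n b cB cF s η lam c x) z z' *
      (Mv n b cB cF s η lam c x (Kset (insert i0 S) BL FL) (glue (Kset S BL FL) z z') i0 -
        l * ∑ e, (if e ∈ Kset (insert i0 S) BL FL \ Kset S BL FL then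
          aR b cB cF i0 (Mv n b cB cF s η lam c x (Kset S BL FL) z) e else 0) * z' e) ^ 2
        ∂(gI _) =
      cx (g1 _) (Kset S BL FL) (Wx n b cB cF s η lam c x)
        (fun y => (cx (g1 _) (Kset (insert i0 S) BL FL) (Wx n b cB cF s η lam c x)
            (Fa b cB cF s η lam c i0) y -
          l * H161.lc (Rw i0 S BL FL)
            (aR b cB cF i0 (Mv n b cB cF s η lam c x (Kset S BL FL) z)) y) ^ 2) z := by
  have hG := gmA (n := n) b cB cF s hl hη c
  have hw : Wt (g1 (Co n LB LF)) (Wx n b cB cF s η lam c x) := wtA b cB cF s hl hη c x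
  have ew : EG (Wx (LB := LB) (LF := LF) n b cB cF s η lam c x) := hG.eg_Zx 1 x
  have hKK : Kset S BL FL ⊆ Kset (LB := LB) (LF := LF) (insert i0 S) BL FL :=
    Kset_mono (Finset.subset_insert i0 S) (Finset.Subset.refl _) (Finset.Subset.refl _)
  have hR : Rw (LB := LB) (LF := LF) i0 S BL FL ⊆ Kset (insert i0 S) BL FL := by
    rw [Rw_eq hi]
    exact Finset.sdiff_subset
  have bN := bm_Mv (n := n) b cB cF s η c x hl hη (Kset (insert i0 S) BL FL) i0
  have eN : EG (cx (g1 _) (Kset (insert i0 S) BL FL) (Wx n b cB cF s η lam c x)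
      (Fa b cB cF s η lam c i0)) := by
    obtain ⟨C, hC⟩ := bN.bd
    exact EG.of_bdd bN.meas hC
  rw [← int_Wz_eg hw ew hKK]
  · refine integral_congr_ae (Filter.Eventually.of_forall fun z' => ?_)
    simp only
    congr 2
    show _ = Mv n b cB cF s η lam c x (Kset (insert i0 S) BL FL) (glue (Kset S BL FL) z z') i0 -
      l * _
    congr 2
    rw [← Rw_eq hi, sum_ite_mul]
    unfold H161.lc
    refine Finset.sum_congr rfl fun e he => ?_
    rw [glue_not_mem]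
    exact Finset.disjoint_right.1 (Rw_disj hi) he
  · intro y y'
    have h1 := dep_cx (μ := g1 _) (w := Wx n b cB cF s η lam c x)
      (Ψ := Fa b cB cF s η lam c i0) (Kset (insert i0 S) BL FL) y y'
    have h2 := H161.dep_lc hR (aR b cB cF i0 (Mv n b cB cF s η lam c x (Kset S BL FL) z)) y y'
    simp only [h1, h2]
  · exact (eN.sub ((H161.eg_lc _ _).const_mul l)).pow 2

omit hl in
/-- the variance of the row energies -/
lemma sum_Sm_le (hi : i0 ∉ S) (BL : Finset LB) (FL : Finset LF) (ω : ℝ × Xs n) :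
    ∑ e ∈ Rw i0 S BL FL, Sm b cB cF s η e ω ^ 2 ≤
      b ^ 2 * ∑ l ∈ BL, cB l ^ 2 + ∑ l ∈ FL, cF l ^ 2 := by
  rw [sum_Rw_sq b cB cF s η hi BL FL ω]
  have hn0 : (0 : ℝ) < n := by
    have : 0 < n := Fin.pos i0
    exact_mod_cast this
  have hT0 : 0 ≤ ∑ l ∈ BL, cB l ^ 2 := Finset.sum_nonneg fun _ _ => sq_nonneg _
  have h1 : (S.card : ℝ) ≤ n := by
    have := Finset.card_le_univ S
    rw [Fintype.card_fin] at this
    exact_mod_cast this
  have h2 : b ^ 2 / n * (∑ l ∈ BL, cB l ^ 2) * S.card ≤ b ^ 2 / n * (∑ l ∈ BL, cB l ^ 2) * n :=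
    mul_le_mul_of_nonneg_left h1 (by positivity)
  have h3 : b ^ 2 / n * (∑ l ∈ BL, cB l ^ 2) * n = b ^ 2 * ∑ l ∈ BL, cB l ^ 2 := by field_simp
  linarith

include hη in
/-- the bound of the frozen gradient of the density -/
theorem bu_sk (hi : i0 ∉ S) (BL : Finset LB) (FL : Finset LF) (z z' : Co n LB LF → ℝ) :
    ∑ e, onA (Kset (insert i0 S) BL FL \ Kset S BL FL)
      (gu (muA (Xs n) lam η c) (Sm b cB cF s η) (Kset (insert i0 S) BL FL)
        (Wx n b cB cF s η lam c x)) e (glue (Kset S BL FL) z z') ^ 2 ≤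
      b ^ 2 * ∑ l ∈ BL, cB l ^ 2 + ∑ l ∈ FL, cF l ^ 2 := by
  rw [sum_onA, ← Rw_eq hi]
  exact sum_gu_le (gmA (n := n) b cB cF s hl hη c) _ _
    (sum_Sm_le b cB cF s η hi BL FL) x _

include hη in
/-- the bound of the frozen gradient of a magnetisation -/
theorem bn_sk (hη1 : η ≤ 1) (hx0 : 0 ≤ x) (hx1 : x ≤ 1) (hi : i0 ∉ S) (hB : BL ⊆ BL1)
    (hF : FL ⊆ FL1) (z z' : Co n LB LF → ℝ) :
    ∑ e, onA (Kset (insert i0 S) BL FL \ Kset S BL1 FL1)
      (gN (muA (Xs n) lam η c) (Sm b cB cF s η) (Kset (insert i0 S) BL FL)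
        (Wx n b cB cF s η lam c x) x (asg n η i0)) e (glue (Kset S BL1 FL1) z z') ^ 2 ≤
      24 * (b ^ 2 * ∑ l ∈ BL, cB l ^ 2 + ∑ l ∈ FL, cF l ^ 2) := by
  rw [sum_onA, row_sdiff hi hB hF]
  have h1 := sum_gN_le (gmA (n := n) b cB cF s hl hη c) (Kset (insert i0 S) BL FL) _
    (sum_Sm_le b cB cF s η hi BL FL) hx0 hx1 (bm_asg (n := n) hη i0) (abs_asg hη i0)
    (glue (Kset S BL1 FL1) z z')
  refine h1.trans (mul_le_mul_of_nonneg_right ?_ ?_)
  · nlinarith
  · have hT0 : 0 ≤ ∑ l ∈ BL, cB l ^ 2 := Finset.sum_nonneg fun _ _ => sq_nonneg _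
    have hv0 : 0 ≤ ∑ l ∈ FL, cF l ^ 2 := Finset.sum_nonneg fun _ _ => sq_nonneg _
    positivity

include hη in
/-- the size of the factor `U` -/
theorem Uf_abs (hη1 : η ≤ 1) (hx0 : 0 ≤ x) (hx1 : x ≤ 1) (K : Finset (Co n LB LF))
    (z : Co n LB LF → ℝ) :
    |Uf (muA (Xs n) lam η c) (Sm b cB cF s η) K (Wx n b cB cF s η lam c x) x (asg n η i0)
      (sg n i0) z| ≤ 4 := by
  have hG := gmA (n := n) b cB cF s hl hη c
  have hw : Wt (g1 (Co n LB LF)) (Wx n b cB cF s η lam c x) := wtA b cB cF s hl hη c x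
  have bA := H347.bm hG 1 (bm_asg (n := n) hη i0)
  have bB := H347.bm hG 1 (bm_sg (n := n) i0)
  have hφ : ∀ y, |avm (muA (Xs n) lam η c) 1 (Sm (LB := LB) (LF := LF) b cB cF s η)
      (asg n η i0) y| ≤ 2 := fun y =>
    (hG.abs_av_le 1 (bm_asg hη i0).1 (abs_asg hη i0) y).trans (by linarith)
  have hVa : |cx (g1 _) K (Wx n b cB cF s η lam c x) (fun y =>
      avm (muA (Xs n) lam η c) 1 (Sm b cB cF s η) (asg n η i0) y *
      avm (muA (Xs n) lam η c) 1 (Sm b cB cF s η) (sg n i0) y) z| ≤ 2 := by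
    refine hw.abs_cx_le K (bA.mul bB) (fun y => ?_) z
    rw [abs_mul]
    have h1 := mul_le_mul (hφ y) (hG.abs_av_le 1 (bm_sg i0).1 (abs_sg i0) y) (abs_nonneg _)
      (by norm_num)
    linarith
  have hNa : |cx (g1 _) K (Wx n b cB cF s η lam c x) (avm (muA (Xs n) lam η c) 1
      (Sm b cB cF s η) (asg n η i0)) z| ≤ 2 :=
    (cx_abs hG hw K (bm_asg hη i0) (abs_asg hη i0) z).trans (by linarith)
  unfold Uf
  set V := cx (g1 _) K (Wx n b cB cF s η lam c x) (fun y =>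
      avm (muA (Xs n) lam η c) 1 (Sm b cB cF s η) (asg n η i0) y *
      avm (muA (Xs n) lam η c) 1 (Sm b cB cF s η) (sg n i0) y) z with hV
  set N := cx (g1 _) K (Wx n b cB cF s η lam c x) (avm (muA (Xs n) lam η c) 1
      (Sm b cB cF s η) (asg n η i0)) z with hN
  have h1 := abs_le.1 hVa
  have h2 : N ^ 2 ≤ 4 := by
    rw [← sq_abs]
    nlinarith [abs_nonneg N]
  have h3 : 0 ≤ N ^ 2 := sq_nonneg N
  have h4 : 0 ≤ x * N ^ 2 := by positivity
  have h5 : x * N ^ 2 ≤ 4 * x := by nlinarith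
  have h6 : (1 - x) * V ≤ (1 - x) * 2 := mul_le_mul_of_nonneg_left h1.2 (by linarith)
  have h7 : (1 - x) * (-2) ≤ (1 - x) * V := mul_le_mul_of_nonneg_left h1.1 (by linarith)
  rw [abs_le]
  constructor <;> linarith

end model

end Vale.Agent.P146.H875
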