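import Vale.Agent.P146.H875.DatSk
import Vale.Agent.P146.H246.Mc
import Vale.Agent.P146.H266.Brx2

/-!
# P146, block 16-BRX: the maximal correlation inequality of one row at a fixed frozen point

`mc_sk` : the hypothesis `hpt` of `H266.Brx.hmc_of_pt` for the modulated SK system, with the
error `R z ^ 2 = 800 s1 s2 √(epz z)`, `epz` the sum of the conditional means of the three errors.
-/

open MeasureTheory ProbabilityTheory Filter Topology

namespace Vale.Agent.P146.H875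

open Vale.Agent.P157.Lv hiding Dep
open Vale.Agent.P146.H196 Vale.Agent.P146.H646 Vale.Agent.P146.H475 Vale.Agent.P146.H347
  Vale.Agent.P146.H487 Vale.Agent.P146.H325 Vale.Agent.P146.H205

set_option linter.unusedSectionVars false

section model

variable {n : ℕ} {LB LF : Type} [Fintype LB] [DecidableEq LB] [Fintype LF] [DecidableEq LF]
variable (b : ℝ) (cB : LB → ℝ) (cF : LF → ℝ) (s η : ℝ) {lam : ℝ} (c x : ℝ)
variable {S : Finset (Fin n)} {i0 : Fin n} {BL1 BL2 : Finset LB} {FL1 FL2 : Finset LF}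

/-- the row vector, zero outside of the row -/
noncomputable def arow (n : ℕ) (b : ℝ) (cB : LB → ℝ) (cF : LF → ℝ) (s η lam c x : ℝ)
    (S : Finset (Fin n)) (i0 : Fin n) (BL : Finset LB) (FL : Finset LF)
    (A : Finset (Co n LB LF)) (z : Co n LB LF → ℝ) (e : Co n LB LF) : ℝ :=
  if e ∈ A then aR b cB cF i0 (Mv n b cB cF s η lam c x (Kset S BL FL) z) e else 0

/-- inner products of the two row vectors -/
lemma arow_dot (hi : i0 ∉ S) (hB : BL2 ⊆ BL1) (hF : FL2 ⊆ FL1) (z : Co n LB LF → ℝ) :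
    ∑ e, arow n b cB cF s η lam c x S i0 BL1 FL1
        (Kset (insert i0 S) BL1 FL1 \ Kset S BL1 FL1) z e *
      arow n b cB cF s η lam c x S i0 BL2 FL2
        (Kset (insert i0 S) BL2 FL2 \ Kset S BL1 FL1) z e =
      b ^ 2 * (∑ l ∈ BL2, cB l ^ 2) * H266.Brx.qi (Wx n b cB cF s η lam c x)
        (Fa b cB cF s η lam c) (Kset S BL1 FL1) (Kset S BL2 FL2) S z + ∑ l ∈ FL2, cF l ^ 2 := by
  have h21 : Rw (LB := LB) (LF := LF) i0 S BL2 FL2 ⊆ Rw i0 S BL1 FL1 := by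
    rw [← row_sdiff hi hB hF, Rw_eq hi]
    exact Finset.sdiff_subset_sdiff (Kset_mono (Finset.Subset.refl _) hB hF)
      (Finset.Subset.refl _)
  rw [row_sdiff hi hB hF, ← Rw_eq hi]
  have e1 : ∀ e, arow n b cB cF s η lam c x S i0 BL1 FL1 (Rw i0 S BL1 FL1) z e *
      arow n b cB cF s η lam c x S i0 BL2 FL2 (Rw i0 S BL2 FL2) z e =
      (if e ∈ Rw i0 S BL2 FL2 then
        aR b cB cF i0 (Mv n b cB cF s η lam c x (Kset S BL2 FL2) z) e else 0) *
        arow n b cB cF s η lam c x S i0 BL1 FL1 (Rw i0 S BL1 FL1) z e := fun e => mul_comm _ _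
  rw [Finset.sum_congr rfl fun e _ => e1 e, sum_ite_mul]
  rw [Finset.sum_congr rfl (g := fun e =>
    aR b cB cF i0 (Mv n b cB cF s η lam c x (Kset S BL2 FL2) z) e *
      aR b cB cF i0 (Mv n b cB cF s η lam c x (Kset S BL1 FL1) z) e) (fun e he => by
        unfold arow
        rw [if_pos (h21 he)])]
  rw [row_dot b cB cF hi]
  unfold H266.Brx.qi
  have e2 : ∑ j ∈ S, Mv n b cB cF s η lam c x (Kset S BL2 FL2) z j *
      Mv n b cB cF s η lam c x (Kset S BL1 FL1) z j =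
      ∑ j ∈ S, cx (g1 _) (Kset S BL1 FL1) (Wx n b cB cF s η lam c x)
        (Fa b cB cF s η lam c j) z * cx (g1 _) (Kset S BL2 FL2) (Wx n b cB cF s η lam c x)
        (Fa b cB cF s η lam c j) z := Finset.sum_congr rfl fun j _ => mul_comm _ _
  rw [e2]
  ring

/-- the square of the small row vector -/
lemma arow_sq (hi : i0 ∉ S) (hB : BL2 ⊆ BL1) (hF : FL2 ⊆ FL1) (z : Co n LB LF → ℝ) :
    ∑ e, arow n b cB cF s η lam c x S i0 BL2 FL2
        (Kset (insert i0 S) BL2 FL2 \ Kset S BL1 FL1) z e ^ 2 =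
      b ^ 2 * (∑ l ∈ BL2, cB l ^ 2) * H266.EG.qq (Wx n b cB cF s η lam c x)
        (Fa b cB cF s η lam c) (Kset S BL2 FL2) S z + ∑ l ∈ FL2, cF l ^ 2 := by
  rw [row_sdiff hi hB hF]
  have e1 : ∀ e, arow n b cB cF s η lam c x S i0 BL2 FL2 (Rw i0 S BL2 FL2) z e ^ 2 =
      (if e ∈ Rw i0 S BL2 FL2 then
        aR b cB cF i0 (Mv n b cB cF s η lam c x (Kset S BL2 FL2) z) e else 0) *
        arow n b cB cF s η lam c x S i0 BL2 FL2 (Rw i0 S BL2 FL2) z e := fun e => by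
    rw [sq]
    rfl
  rw [Finset.sum_congr rfl fun e _ => e1 e, sum_ite_mul]
  rw [Finset.sum_congr rfl (g := fun e =>
    aR b cB cF i0 (Mv n b cB cF s η lam c x (Kset S BL2 FL2) z) e *
      aR b cB cF i0 (Mv n b cB cF s η lam c x (Kset S BL2 FL2) z) e) (fun e he => by
        unfold arow
        rw [if_pos he])]
  rw [row_dot b cB cF hi]
  unfold H266.EG.qq H615.m2
  have e2 : ∑ j ∈ S, Mv n b cB cF s η lam c x (Kset S BL2 FL2) z j *
      Mv n b cB cF s η lam c x (Kset S BL2 FL2) z j =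
      ∑ j ∈ S, cx (g1 _) (Kset S BL2 FL2) (Wx n b cB cF s η lam c x)
        (Fa b cB cF s η lam c j) z ^ 2 := Finset.sum_congr rfl fun j _ => (sq _).symm
  rw [e2]
  ring

/-- the conditional mean of the three errors at the frozen point -/
noncomputable def epz (n : ℕ) (b : ℝ) (cB : LB → ℝ) (cF : LF → ℝ) (s η lam c x : ℝ) (i0 : Fin n)
    (S : Finset (Fin n)) (BL1 BL2 : Finset LB) (FL1 FL2 : Finset LF) (z : Co n LB LF → ℝ) : ℝ :=
  cx (g1 _) (Kset S BL1 FL1) (Wx n b cB cF s η lam c x)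
      (errU n b cB cF s η lam c x i0 S BL1 FL1) z +
    (cx (g1 _) (Kset S BL1 FL1) (Wx n b cB cF s η lam c x)
      (errN n b cB cF s η lam c x i0 S BL1 FL1) z +
    cx (g1 _) (Kset S BL1 FL1) (Wx n b cB cF s η lam c x)
      (errN n b cB cF s η lam c x i0 S BL2 FL2) z)

variable (hl : 0 < lam) (hη : 0 ≤ η)
include hl hη

lemma bm_errU (BL : Finset LB) (FL : Finset LF) :
    BM (errU n b cB cF s η lam c x i0 S BL FL) := by
  have hG := gmA (n := n) b cB cF s hl hη c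
  have hw : Wt (g1 (Co n LB LF)) (Wx n b cB cF s η lam c x) := wtA b cB cF s hl hη c x
  unfold errU
  exact BM.sum _ fun e _ => BM.sq' ((bm_gu hG hw _ e).sub
    ((bm_Mv b cB cF s η c x hl hη _ i0).mul
      (bm_aR b cB cF (fun j => bm_Mv b cB cF s η c x hl hη _ j) e)))

lemma bm_errN (BL : Finset LB) (FL : Finset LF) :
    BM (errN n b cB cF s η lam c x i0 S BL FL) := by
  have hG := gmA (n := n) b cB cF s hl hη c
  have hw : Wt (g1 (Co n LB LF)) (Wx n b cB cF s η lam c x) := wtA b cB cF s hl hη c x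
  unfold errN
  exact BM.sum _ fun e _ => BM.sq' ((bm_gN hG hw _ x (bm_asg (n := n) hη i0) e).sub
    ((bm_Uf hG hw _ x (bm_asg (n := n) hη i0) (bm_sg i0)).mul
      (bm_aR b cB cF (fun j => bm_Mv b cB cF s η c x hl hη _ j) e)))

lemma bm_epz : BM (epz n b cB cF s η lam c x i0 S BL1 BL2 FL1 FL2) := by
  have hw : Wt (g1 (Co n LB LF)) (Wx n b cB cF s η lam c x) := wtA b cB cF s hl hη c x
  unfold epz
  exact (hw.bm_cx _ (bm_errU b cB cF s η c x hl hη _ _)).add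
    ((hw.bm_cx _ (bm_errN b cB cF s η c x hl hη _ _)).add
      (hw.bm_cx _ (bm_errN b cB cF s η c x hl hη _ _)))

/-- the mean of the error -/
theorem ex_epz_le (hη1 : η ≤ 1) (hx0 : 0 ≤ x) (hx1 : x ≤ 1) (hi : i0 ∉ S) :
    ex (g1 _) (Wx n b cB cF s η lam c x) (epz n b cB cF s η lam c x i0 S BL1 BL2 FL1 FL2) ≤
      2 * errB n b cB cF s η lam c x i0 S BL1 FL1 +
        errB n b cB cF s η lam c x i0 S BL2 FL2 := by
  have hw : Wt (g1 (Co n LB LF)) (Wx n b cB cF s η lam c x) := wtA b cB cF s hl hη c x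
  have b1 := bm_errU b cB cF s η c x (i0 := i0) (S := S) hl hη BL1 FL1
  have b2 := bm_errN b cB cF s η c x (i0 := i0) (S := S) hl hη BL1 FL1
  have b3 := bm_errN b cB cF s η c x (i0 := i0) (S := S) hl hη BL2 FL2
  unfold epz
  rw [hw.ex_add (hw.bm_cx _ b1) ((hw.bm_cx _ b2).add (hw.bm_cx _ b3)),
    hw.ex_add (hw.bm_cx _ b2) (hw.bm_cx _ b3), ex_cx' hw b1, ex_cx' hw b2, ex_cx' hw b3]
  have h1 := ex_errU_le b cB cF s η c x hl hη hη1 hi BL1 FL1
  have h2 := ex_errN_le b cB cF s η c x hl hη hη1 hx0 hx1 hi BL1 FL1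
  have h3 := ex_errN_le b cB cF s η c x hl hη hη1 hx0 hx1 hi BL2 FL2
  linarith

/-- the data of the maximal correlation theorem at the frozen point -/
theorem dat_sk (hη1 : η ≤ 1) (hx0 : 0 ≤ x) (hx1 : x ≤ 1) (hi : i0 ∉ S) (hB : BL2 ⊆ BL1)
    (hF : FL2 ⊆ FL1) {Λ : ℝ}
    (hΛ : 24 * (b ^ 2 * ∑ l ∈ BL1, cB l ^ 2 + ∑ l ∈ FL1, cF l ^ 2) ≤ Λ ^ 2)
    (z : Co n LB LF → ℝ) :
    H246.Mc.Dat x Λ
      (Wz (Kset S BL1 FL1) (Kset (insert i0 S) BL1 FL1) (Wx n b cB cF s η lam c x) z)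
      (fun z' => cx (g1 _) (Kset (insert i0 S) BL1 FL1) (Wx n b cB cF s η lam c x)
        (Fa b cB cF s η lam c i0) (glue (Kset S BL1 FL1) z z'))
      (fun z' => cx (g1 _) (Kset (insert i0 S) BL2 FL2) (Wx n b cB cF s η lam c x)
        (Fa b cB cF s η lam c i0) (glue (Kset S BL1 FL1) z z'))
      (fun e z' => onA (Kset (insert i0 S) BL1 FL1 \ Kset S BL1 FL1)
        (gu (muA (Xs n) lam η c) (Sm b cB cF s η) (Kset (insert i0 S) BL1 FL1)
          (Wx n b cB cF s η lam c x)) e (glue (Kset S BL1 FL1) z z'))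
      (fun e z' => onA (Kset (insert i0 S) BL1 FL1 \ Kset S BL1 FL1)
        (gN (muA (Xs n) lam η c) (Sm b cB cF s η) (Kset (insert i0 S) BL1 FL1)
          (Wx n b cB cF s η lam c x) x (asg n η i0)) e (glue (Kset S BL1 FL1) z z'))
      (fun e z' => onA (Kset (insert i0 S) BL2 FL2 \ Kset S BL1 FL1)
        (gN (muA (Xs n) lam η c) (Sm b cB cF s η) (Kset (insert i0 S) BL2 FL2)
          (Wx n b cB cF s η lam c x) x (asg n η i0)) e (glue (Kset S BL1 FL1) z z')) := by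
  have hG := gmA (n := n) b cB cF s hl hη c
  have hw : Wt (g1 (Co n LB LF)) (Wx n b cB cF s η lam c x) := wtA b cB cF s hl hη c x
  have hKK : Kset S BL1 FL1 ⊆ Kset (LB := LB) (LF := LF) (insert i0 S) BL1 FL1 :=
    Kset_mono (Finset.subset_insert i0 S) (Finset.Subset.refl _) (Finset.Subset.refl _)
  have hT1 : 0 ≤ ∑ l ∈ BL1, cB l ^ 2 := Finset.sum_nonneg fun _ _ => sq_nonneg _
  have hv1 : 0 ≤ ∑ l ∈ FL1, cF l ^ 2 := Finset.sum_nonneg fun _ _ => sq_nonneg _
  have hT2 : ∑ l ∈ BL2, cB l ^ 2 ≤ ∑ l ∈ BL1, cB l ^ 2 :=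
    Finset.sum_le_sum_of_subset_of_nonneg hB fun _ _ _ => sq_nonneg _
  have hv2 : ∑ l ∈ FL2, cF l ^ 2 ≤ ∑ l ∈ FL1, cF l ^ 2 :=
    Finset.sum_le_sum_of_subset_of_nonneg hF fun _ _ _ => sq_nonneg _
  have hbT : 0 ≤ b ^ 2 * ∑ l ∈ BL1, cB l ^ 2 := mul_nonneg (sq_nonneg b) hT1
  have hbT2 : b ^ 2 * ∑ l ∈ BL2, cB l ^ 2 ≤ b ^ 2 * ∑ l ∈ BL1, cB l ^ 2 :=
    mul_le_mul_of_nonneg_left hT2 (sq_nonneg b)
  refine
    { pdW := fun e => pd_Wz hG x z e
      pd1 := fun e => pd_Nz hG x _ _ (bm_asg hη i0) z e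
      pd2 := fun e => pd_Nz hG x _ _ (bm_asg hη i0) z e
      cu := fun e => cont_onA hG (fun e => cont_gu hG x _ e) _ z e
      cn1 := fun e => cont_onA hG (fun e => cont_gN hG x _ (bm_asg hη i0) e) _ z e
      cn2 := fun e => cont_onA hG (fun e => cont_gN hG x _ (bm_asg hη i0) e) _ z e
      egW := eg_Wz hG x _ _ z
      pos := fun z' => Wz_pos hw _ _ z z'
      one := int_Wz_one hw hKK z
      ev := fun z' => Wz_even b cB cF s η c x hl hi BL1 FL1 z z'
      od1 := fun z' => Nz_odd b cB cF s η c x hl hi (Finset.Subset.refl _)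
        (Finset.Subset.refl _) z z'
      od2 := fun z' => Nz_odd b cB cF s η c x hl hi hB hF z z'
      b1 := fun z' => (cx_abs hG hw _ (bm_asg hη i0) (abs_asg hη i0) _).trans (by linarith)
      b2 := fun z' => (cx_abs hG hw _ (bm_asg hη i0) (abs_asg hη i0) _).trans (by linarith)
      bu := fun z' => (bu_sk b cB cF s η c x hl hη hi BL1 FL1 z z').trans (by linarith)
      bn1 := fun z' => (bn_sk b cB cF s η c x hl hη hη1 hx0 hx1 hi (Finset.Subset.refl _)
        (Finset.Subset.refl _) z z').trans hΛ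
      bn2 := fun z' => (bn_sk b cB cF s η c x hl hη hη1 hx0 hx1 hi hB hF z z').trans
        (by linarith) }

/-- **The maximal correlation inequality of one row at a fixed frozen point.** -/
theorem mc_sk (hη1 : η ≤ 1) (hx0 : 0 ≤ x) (hx1 : x ≤ 1) (hi : i0 ∉ S) (hB : BL2 ⊆ BL1)
    (hF : FL2 ⊆ FL1) {τ1 v1 τ2 v2 Λ ν : ℝ} (hτ1 : b ^ 2 * ∑ l ∈ BL1, cB l ^ 2 = τ1)
    (hv1 : ∑ l ∈ FL1, cF l ^ 2 = v1) (hτ2 : b ^ 2 * ∑ l ∈ BL2, cB l ^ 2 = τ2)
    (hv2 : ∑ l ∈ FL2, cF l ^ 2 = v2) (hΛ1 : 1 ≤ Λ) (hΛ : 24 * (τ1 + v1) ≤ Λ ^ 2)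
    (hxΛ : 64 * (x * Λ ^ 2) ≤ 1) (z : Co n LB LF → ℝ)
    (h0 : 0 < τ1 * H266.EG.qq (Wx n b cB cF s η lam c x) (Fa b cB cF s η lam c)
      (Kset S BL1 FL1) S z + v1)
    (hε : epz n b cB cF s η lam c x i0 S BL1 BL2 FL1 FL2 z ≤ 1)
    (hν : ∀ u : ℝ, ν ≤ cx (g1 _) (Kset S BL1 FL1) (Wx n b cB cF s η lam c x)
        (fun y => (cx (g1 _) (Kset (insert i0 S) BL1 FL1) (Wx n b cB cF s η lam c x)
            (Fa b cB cF s η lam c i0) y -
          u * H161.lc (Rw i0 S BL1 FL1)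
            (aR b cB cF i0 (Mv n b cB cF s η lam c x (Kset S BL1 FL1) z)) y) ^ 2) z)
    (hC : 4800 * (x * (τ1 * H266.EG.qq (Wx n b cB cF s η lam c x) (Fa b cB cF s η lam c)
      (Kset S BL1 FL1) S z + v1) ^ 2) ≤ ν) :
    (τ1 * H266.EG.qq (Wx n b cB cF s η lam c x) (Fa b cB cF s η lam c) (Kset S BL1 FL1) S z +
        v1) * (τ2 * H266.EG.qq (Wx n b cB cF s η lam c x) (Fa b cB cF s η lam c)
          (Kset S BL2 FL2) S z + v2) *
      cx (g1 _) (Kset S BL1 FL1) (Wx n b cB cF s η lam c x)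
        (fun z => cx (g1 _) (Kset (insert i0 S) BL1 FL1) (Wx n b cB cF s η lam c x)
            (Fa b cB cF s η lam c i0) z *
          cx (g1 _) (Kset (insert i0 S) BL2 FL2) (Wx n b cB cF s η lam c x)
            (Fa b cB cF s η lam c i0) z) z ^ 2 ≤
      (τ2 * H266.Brx.qi (Wx n b cB cF s η lam c x) (Fa b cB cF s η lam c) (Kset S BL1 FL1)
          (Kset S BL2 FL2) S z + v2) ^ 2 *
        (cx (g1 _) (Kset S BL1 FL1) (Wx n b cB cF s η lam c x)
            (fun z => cx (g1 _) (Kset (insert i0 S) BL1 FL1) (Wx n b cB cF s η lam c x)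
              (Fa b cB cF s η lam c i0) z ^ 2) z *
          cx (g1 _) (Kset S BL1 FL1) (Wx n b cB cF s η lam c x)
            (fun z => cx (g1 _) (Kset (insert i0 S) BL2 FL2) (Wx n b cB cF s η lam c x)
              (Fa b cB cF s η lam c i0) z ^ 2) z) +
      800 * ((τ1 * H266.EG.qq (Wx n b cB cF s η lam c x) (Fa b cB cF s η lam c)
          (Kset S BL1 FL1) S z + v1) *
        (τ2 * H266.EG.qq (Wx n b cB cF s η lam c x) (Fa b cB cF s η lam c)
          (Kset S BL2 FL2) S z + v2) *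
        √(epz n b cB cF s η lam c x i0 S BL1 BL2 FL1 FL2 z)) := by
  have hG := gmA (n := n) b cB cF s hl hη c
  have hw : Wt (g1 (Co n LB LF)) (Wx n b cB cF s η lam c x) := wtA b cB cF s hl hη c x
  have hKK : Kset S BL1 FL1 ⊆ Kset (LB := LB) (LF := LF) (insert i0 S) BL1 FL1 :=
    Kset_mono (Finset.subset_insert i0 S) (Finset.Subset.refl _) (Finset.Subset.refl _)
  have h21' : Kset (insert i0 S) BL2 FL2 ⊆ Kset (LB := LB) (LF := LF) (insert i0 S) BL1 FL1 :=
    Kset_mono (Finset.Subset.refl _) hB hF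
  have hT1 : 0 ≤ τ1 := by
    rw [← hτ1]
    exact mul_nonneg (sq_nonneg b) (Finset.sum_nonneg fun _ _ => sq_nonneg _)
  have hv10 : 0 ≤ v1 := by
    rw [← hv1]
    exact Finset.sum_nonneg fun _ _ => sq_nonneg _
  have D := dat_sk b cB cF s η c x hl hη hη1 hx0 hx1 hi hB hF (Λ := Λ)
    (by rw [hτ1, hv1]; exact hΛ) z
  have eU : ∀ K : Finset (Co n LB LF), EG fun z' => Uf (muA (Xs n) lam η c) (Sm b cB cF s η)
      K (Wx n b cB cF s η lam c x) x (asg n η i0) (sg n i0)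
      (glue (Kset S BL1 FL1) z z') := fun K =>
    EG.of_bdd ((cont_Uf hG x K (bm_asg hη i0) (bm_sg i0)).comp
      (continuous_glue_right _ z)).measurable
      fun z' => Uf_abs b cB cF s η c x hl hη hη1 hx0 hx1 K _
  have bN : ∀ K : Finset (Co n LB LF), BM (cx (g1 _) K (Wx n b cB cF s η lam c x)
      (Fa b cB cF s η lam c i0)) := fun K => bm_Mv b cB cF s η c x hl hη K i0
  have dN : ∀ K : Finset (Co n LB LF), H646.Dep K (cx (g1 _) K (Wx n b cB cF s η lam c x)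
      (Fa b cB cF s η lam c i0)) := fun K => dep_cx K
  -- the three errors
  have q1 := E1_eq b cB cF s η c x hl hη hi BL1 FL1 z
  have q2 := E3_eq b cB cF s η c x hl hη hi (Finset.Subset.refl BL1) (Finset.Subset.refl FL1) z
  have q3 := E3_eq b cB cF s η c x hl hη hi hB hF z
  have p1 : 0 ≤ cx (g1 _) (Kset S BL1 FL1) (Wx n b cB cF s η lam c x)
      (errU n b cB cF s η lam c x i0 S BL1 FL1) z := by
    rw [← q1]
    exact integral_nonneg fun z' => mul_nonneg (Wz_pos hw _ _ z z').le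
      (Finset.sum_nonneg fun _ _ => sq_nonneg _)
  have p2 : 0 ≤ cx (g1 _) (Kset S BL1 FL1) (Wx n b cB cF s η lam c x)
      (errN n b cB cF s η lam c x i0 S BL1 FL1) z := by
    rw [← q2]
    exact integral_nonneg fun z' => mul_nonneg (Wz_pos hw _ _ z z').le
      (Finset.sum_nonneg fun _ _ => sq_nonneg _)
  have p3 : 0 ≤ cx (g1 _) (Kset S BL1 FL1) (Wx n b cB cF s η lam c x)
      (errN n b cB cF s η lam c x i0 S BL2 FL2) z := by
    rw [← q3]
    exact integral_nonneg fun z' => mul_nonneg (Wz_pos hw _ _ z z').le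
      (Finset.sum_nonneg fun _ _ => sq_nonneg _)
  have hε0 : 0 ≤ epz n b cB cF s η lam c x i0 S BL1 BL2 FL1 FL2 z := by
    unfold epz
    linarith
  have r1 : cx (g1 _) (Kset S BL1 FL1) (Wx n b cB cF s η lam c x)
      (errU n b cB cF s η lam c x i0 S BL1 FL1) z ≤
      epz n b cB cF s η lam c x i0 S BL1 BL2 FL1 FL2 z := by
    unfold epz
    linarith
  have r2 : cx (g1 _) (Kset S BL1 FL1) (Wx n b cB cF s η lam c x)
      (errN n b cB cF s η lam c x i0 S BL1 FL1) z ≤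
      epz n b cB cF s η lam c x i0 S BL1 BL2 FL1 FL2 z := by
    unfold epz
    linarith
  have r3 : cx (g1 _) (Kset S BL1 FL1) (Wx n b cB cF s η lam c x)
      (errN n b cB cF s η lam c x i0 S BL2 FL2) z ≤
      epz n b cB cF s η lam c x i0 S BL1 BL2 FL1 FL2 z := by
    unfold epz
    linarith
  -- the size of the row vector
  have hq4 : H266.EG.qq (Wx n b cB cF s η lam c x) (Fa b cB cF s η lam c)
      (Kset S BL1 FL1) S z ≤ 4 := by
    unfold H266.EG.qq H615.m2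
    have hn0 : (0 : ℝ) < n := by
      have : 0 < n := Fin.pos i0
      exact_mod_cast this
    rw [div_le_iff₀ hn0]
    have h1 : ∀ j ∈ S, cx (g1 _) (Kset S BL1 FL1) (Wx n b cB cF s η lam c x)
        (Fa b cB cF s η lam c j) z ^ 2 ≤ 4 := fun j _ => by
      have h2 : |cx (g1 _) (Kset S BL1 FL1) (Wx n b cB cF s η lam c x)
          (Fa b cB cF s η lam c j) z| ≤ 1 + η :=
        cx_abs hG hw _ (bm_asg hη j) (abs_asg hη j) z
      rw [← sq_abs]
      nlinarith [abs_nonneg (cx (g1 _) (Kset S BL1 FL1) (Wx n b cB cF s η lam c x)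
          (Fa b cB cF s η lam c j) z)]
    have h3 := Finset.sum_le_card_nsmul S _ 4 h1
    rw [nsmul_eq_mul] at h3
    have h4 : (S.card : ℝ) ≤ n := by
      have := Finset.card_le_univ S
      rw [Fintype.card_fin] at this
      exact_mod_cast this
    linarith
  have hs1Λ : τ1 * H266.EG.qq (Wx n b cB cF s η lam c x) (Fa b cB cF s η lam c)
      (Kset S BL1 FL1) S z + v1 ≤ Λ ^ 2 := by
    have h1 := mul_le_mul_of_nonneg_left hq4 hT1
    linarith
  -- the theorem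
  have M := H246.Mc.mc D hx0 hΛ1 hxΛ (eU (Kset (insert i0 S) BL1 FL1))
    (eU (Kset (insert i0 S) BL2 FL2))
    (fun z' => Uf_abs b cB cF s η c x hl hη hη1 hx0 hx1 _ _)
    (a1 := arow n b cB cF s η lam c x S i0 BL1 FL1
      (Kset (insert i0 S) BL1 FL1 \ Kset S BL1 FL1) z)
    (a2 := arow n b cB cF s η lam c x S i0 BL2 FL2
      (Kset (insert i0 S) BL2 FL2 \ Kset S BL1 FL1) z)
    (s1 := τ1 * H266.EG.qq (Wx n b cB cF s η lam c x) (Fa b cB cF s η lam c)
      (Kset S BL1 FL1) S z + v1)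
    (s2 := τ2 * H266.EG.qq (Wx n b cB cF s η lam c x) (Fa b cB cF s η lam c)
      (Kset S BL2 FL2) S z + v2)
    (c := τ2 * H266.Brx.qi (Wx n b cB cF s η lam c x) (Fa b cB cF s η lam c)
      (Kset S BL1 FL1) (Kset S BL2 FL2) S z + v2)
    (ε := epz n b cB cF s η lam c x i0 S BL1 BL2 FL1 FL2 z) (ν := ν)
    (by
      rw [← hτ1, ← hv1]
      exact arow_sq b cB cF s η c x hi (Finset.Subset.refl _) (Finset.Subset.refl _) z)
    h0 hs1Λ
    (by
      rw [← hτ2, ← hv2]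
      exact arow_sq b cB cF s η c x hi hB hF z)
    (by
      rw [← hτ2, ← hv2]
      exact arow_dot b cB cF s η c x hi hB hF z)
    hε0 hε (q1.le.trans r1) (q2.le.trans r2) (q3.le.trans r3)
    (fun u => (hν u).trans (lin_eq b cB cF s η c x hl hη hi BL1 FL1 u z).ge) hC
  -- the three integrals
  have i1 := int_Wz hw hKK (Ψ := fun y =>
      cx (g1 _) (Kset (insert i0 S) BL1 FL1) (Wx n b cB cF s η lam c x)
        (Fa b cB cF s η lam c i0) y *
      cx (g1 _) (Kset (insert i0 S) BL2 FL2) (Wx n b cB cF s η lam c x)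
        (Fa b cB cF s η lam c i0) y)
    (fun y y' => by
      simp only
      rw [dN _ y y', (dN (Kset (insert i0 S) BL2 FL2)).mono h21' y y'])
    ((bN _).mul (bN _)) z
  have i2 := int_Wz hw hKK (Ψ := fun y =>
      cx (g1 _) (Kset (insert i0 S) BL1 FL1) (Wx n b cB cF s η lam c x)
        (Fa b cB cF s η lam c i0) y ^ 2)
    (fun y y' => by
      simp only
      rw [dN _ y y'])
    (BM.sq' (bN _)) z
  have i3 := int_Wz hw hKK (Ψ := fun y =>
      cx (g1 _) (Kset (insert i0 S) BL2 FL2) (Wx n b cB cF s η lam c x)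
        (Fa b cB cF s η lam c i0) y ^ 2)
    (fun y y' => by
      simp only
      rw [(dN (Kset (insert i0 S) BL2 FL2)).mono h21' y y'])
    (BM.sq' (bN _)) z

  rw [i1, i2, i3] at M
  rw [← mul_assoc]
  exact M

end model

end Vale.Agent.P146.H875
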