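import Vale.Agent.P146.H205.N4M

/-!
# P146, block 16-BRX, piece [X2]: the gradients of the row density and of the row magnetisation

`K = Kset S BL FL`, `K' = Kset (insert i0 S) BL FL`, `w = Z ^ x`, `M_j = cx K w <a s_j>`,
`N = cx K' w <a s_i0>`; the row coordinates are `Rw i0 S BL FL`; the row vector `av b cB cF i0 M` is
`(b cB_l / √n M_j, cF_l)`.

* `pd_u`: the derivative of `log wn K' w` in a row coordinate `e` is `x` times `gu e`,
  `gu e = cx K' w <S_e>`; `pd_N`: the derivative of `N` is `gN e`.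
* `gradu_le`, `gradN_le`: the means of `∑_e (gu e - N a_e)^2` and of `∑_e (gN e - U a_e)^2`,
  `U = 1 - (1 - x) cx K' w (<a s_0> <s_0>) - x N^2`, are at most
  `C b^2 T (inc / n + √RK / n + η^2) + C v η^2`, where `RK` is the rank-one number of the sites
  `insert i0 S` given `K'` and `inc` the increment of `ex ∑ M_j^2` in one step.
-/

open MeasureTheory ProbabilityTheory

namespace Vale.Agent.P146.H875

open Vale.Agent.P157.Lv hiding Dep
open Vale.Agent.P146.H196 Vale.Agent.P146.H646 Vale.Agent.P146.H475 Vale.Agent.P146.H347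
  Vale.Agent.P146.H487 Vale.Agent.P146.H325 Vale.Agent.P146.H205

set_option linter.unusedSectionVars false

/-! ### the slot lemma at a fixed point -/

section gibbs

variable {ι : Type} [Fintype ι] [DecidableEq ι] {Ω : Type} [MeasurableSpace Ω] {m : Measure Ω}
  {S : ι → Ω → ℝ} {M0 : ℝ} {K : Finset ι} {w φ : (ι → ℝ) → ℝ} {h : Ω → ℝ} {C0 C1 : ℝ}
  {J : Type} {f : J → Ω → ℝ}

/-- the covariance given the coordinates in `K` -/
noncomputable def kc (m : Measure Ω) (S : ι → Ω → ℝ) (K : Finset ι) (w : (ι → ℝ) → ℝ)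
    (f g : Ω → ℝ) (z : ι → ℝ) : ℝ :=
  cx (g1 ι) K w (avm m 1 S (fun ω => f ω * g ω)) z -
    cx (g1 ι) K w (avm m 1 S f) z * cx (g1 ι) K w (avm m 1 S g) z

/-- the rank-one number of a family of observables -/
noncomputable def rkc (m : Measure Ω) (S : ι → Ω → ℝ) (K : Finset ι) (w : (ι → ℝ) → ℝ)
    (T : Finset J) (f : J → Ω → ℝ) (z : ι → ℝ) : ℝ :=
  ∑ i ∈ T, ∑ j ∈ T, kc m S K w (f i) (f j) z ^ 2

lemma rkc_nonneg (T : Finset J) (z : ι → ℝ) : 0 ≤ rkc m S K w T f z :=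
  Finset.sum_nonneg fun _ _ => Finset.sum_nonneg fun _ _ => sq_nonneg _

variable (hG : GM m S M0) (hw : Wt (g1 ι) w)
include hG hw

lemma bm_kc {g : Ω → ℝ} (hh : Bm h) (hg : Bm g) : BM (kc m S K w h g) :=
  (hw.bm_cx K (H347.bm hG 1 (hh.mul hg))).sub
    ((hw.bm_cx K (H347.bm hG 1 hh)).mul (hw.bm_cx K (H347.bm hG 1 hg)))

lemma bm_rkc (T : Finset J) (hf : ∀ j ∈ T, Bm (f j)) : BM (rkc m S K w T f) :=
  BM.sum _ fun i hi => BM.sum _ fun j hj => BM.sq' (bm_kc hG hw (hf i hi) (hf j hj))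

/-- the quadratic form of the covariances -/
lemma cx_cov_sum (T : Finset J) (hf : ∀ j ∈ T, Bm (f j)) (c : J → ℝ) (z : ι → ℝ) :
    cx (g1 ι) K w (avm m 1 S (fun ω => (∑ j ∈ T, c j * (f j ω -
      cx (g1 ι) K w (avm m 1 S (f j)) z)) ^ 2)) z =
      ∑ i ∈ T, ∑ j ∈ T, c i * c j * kc m S K w (f i) (f j) z := by
  set mu : J → ℝ := fun j => cx (g1 ι) K w (avm m 1 S (f j)) z with hmu
  have bt : ∀ i ∈ T, ∀ j ∈ T, Bm fun ω => (c i * c j) * ((f i ω - mu i) * (f j ω - mu j)) :=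
    fun i hi j hj => (((hf i hi).sub (Bm.const _)).mul ((hf j hj).sub (Bm.const _))).const_mul _
  have e1 : (fun ω => (∑ j ∈ T, c j * (f j ω - mu j)) ^ 2) =
      fun ω => ∑ i ∈ T, ∑ j ∈ T, (c i * c j) * ((f i ω - mu i) * (f j ω - mu j)) := by
    funext ω
    rw [sq, Finset.sum_mul_sum]
    exact Finset.sum_congr rfl fun e _ => Finset.sum_congr rfl fun f _ => by ring
  have e2 : avm m 1 S (fun ω => (∑ j ∈ T, c j * (f j ω - mu j)) ^ 2) =
      fun y => ∑ i ∈ T, ∑ j ∈ T, (c i * c j) *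
        avm m 1 S (fun ω => (f i ω - mu i) * (f j ω - mu j)) y := by
    funext y
    rw [e1, hG.av_sum 1 T fun e he => Bm.sum T fun f hf' => bt e he f hf']
    refine Finset.sum_congr rfl fun e he => ?_
    rw [hG.av_sum 1 T fun f hf' => bt e he f hf']
    exact Finset.sum_congr rfl fun f _ => H196.av_mul m 1 S _ _ y
  have bb : ∀ i ∈ T, ∀ j ∈ T, BM (avm m 1 S (fun ω => (f i ω - mu i) * (f j ω - mu j))) :=
    fun i hi j hj => H347.bm hG 1 (((hf i hi).sub (Bm.const _)).mul ((hf j hj).sub (Bm.const _)))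
  rw [e2, cx_sum hw T (fun e he => BM.sum T fun f hf' => (BM.const _).mul (bb e he f hf')) z]
  refine Finset.sum_congr rfl fun i hi => ?_
  rw [cx_sum hw T (fun f hf' => (BM.const _).mul (bb i hi f hf')) z]
  refine Finset.sum_congr rfl fun j hj => ?_
  rw [cx_const_mul hw]
  congr 1
  have bij := H347.bm hG 1 ((hf i hi).mul (hf j hj))
  have bi := H347.bm hG 1 (hf i hi)
  have bj := H347.bm hG 1 (hf j hj)
  have e3 : avm m 1 S (fun ω => (f i ω - mu i) * (f j ω - mu j)) =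
      fun y => (avm m 1 S (fun ω => f i ω * f j ω) y - (mu i * avm m 1 S (f j) y +
        mu j * avm m 1 S (f i) y)) + mu i * mu j := by
    funext y
    have e4 : (fun ω => (f i ω - mu i) * (f j ω - mu j)) =
        fun ω => (f i ω * f j ω - (mu i * f j ω + mu j * f i ω)) + mu i * mu j := by
      funext ω
      ring
    rw [e4, hG.av_add 1 (((hf i hi).mul (hf j hj)).sub (((hf j hj).const_mul _).add
      ((hf i hi).const_mul _))) (Bm.const _), hG.av_sub 1 ((hf i hi).mul (hf j hj))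
      (((hf j hj).const_mul _).add ((hf i hi).const_mul _)),
      hG.av_add 1 ((hf j hj).const_mul _) ((hf i hi).const_mul _),
      H196.av_mul, H196.av_mul, hG.av_const]
  rw [e3, cx_add hw (bij.sub (((BM.const _).mul bj).add ((BM.const _).mul bi))) (BM.const _),
    cx_sub hw bij (((BM.const _).mul bj).add ((BM.const _).mul bi)),
    cx_add hw ((BM.const _).mul bj) ((BM.const _).mul bi), cx_const_mul hw, cx_const_mul hw]
  have e5 : cx (g1 ι) K w (fun _ => mu i * mu j) z = mu i * mu j :=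
    cx_dep hw (K := K) (Q := fun _ => mu i * mu j) (fun _ _ => rfl) z
  rw [e5]
  show cx (g1 ι) K w (avm m 1 S (fun ω => f i ω * f j ω)) z - (mu i * mu j + mu j * mu i) +
    mu i * mu j = cx (g1 ι) K w (avm m 1 S (fun ω => f i ω * f j ω)) z - mu i * mu j
  ring

/-- **the slot lemma at a fixed point**: the covariances with `φ ⟨h ·⟩`. -/
theorem slot (T : Finset J) (hf : ∀ j ∈ T, Bm (f j)) (hφ : BM φ) (hC0 : ∀ y, |φ y| ≤ C0)
    (hh : Bm h) (hC1 : ∀ ω, |h ω| ≤ C1) (z : ι → ℝ) :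
    ∑ j ∈ T, (cx (g1 ι) K w (fun y => φ y * avm m 1 S (fun ω => h ω * f j ω) y) z -
        cx (g1 ι) K w (avm m 1 S (f j)) z * cx (g1 ι) K w (fun y => φ y * avm m 1 S h y) z) ^ 2 ≤
      (C0 * C1) ^ 2 * √(rkc m S K w T f z) := by
  set mu : J → ℝ := fun j => cx (g1 ι) K w (avm m 1 S (f j)) z with hmu
  set a : J → ℝ := fun j => cx (g1 ι) K w (fun y => φ y * avm m 1 S (fun ω => h ω * f j ω) y) z -
        mu j * cx (g1 ι) K w (fun y => φ y * avm m 1 S h y) z with ha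
  refine dual_num T a (fun i j => kc m S K w (f i) (f j) z) ?_
  rw [← cx_cov_sum hG hw T hf]
  set Y : Ω → ℝ := fun ω => ∑ j ∈ T, a j * (f j ω - mu j) with hY
  have bY : Bm Y := Bm.sum T fun j hj => ((hf j hj).sub (Bm.const _)).const_mul _
  have bh := H347.bm hG 1 hh
  have e1 : ∑ j ∈ T, a j ^ 2 = cx (g1 ι) K w (fun y => φ y * avm m 1 S (fun ω => h ω * Y ω) y) z := by
    have e3 : (fun y => φ y * avm m 1 S (fun ω => h ω * Y ω) y) =
        fun y => ∑ j ∈ T, a j * (φ y * avm m 1 S (fun ω => h ω * f j ω) y -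
          mu j * (φ y * avm m 1 S h y)) := by
      funext y
      have e4 : (fun ω => h ω * Y ω) = fun ω => ∑ j ∈ T, a j * (h ω * f j ω - mu j * h ω) := by
        funext ω
        rw [hY]
        simp only
        rw [Finset.mul_sum]
        exact Finset.sum_congr rfl fun j _ => by ring
      rw [e4, hG.av_sum 1 T fun j hj => ((hh.mul (hf j hj)).sub (hh.const_mul _)).const_mul (a j),
        Finset.mul_sum]
      refine Finset.sum_congr rfl fun j hj => ?_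
      rw [H196.av_mul m 1 S (a j) (fun ω => h ω * f j ω - mu j * h ω) y,
        hG.av_sub 1 (hh.mul (hf j hj)) (hh.const_mul _), H196.av_mul]
      ring
    have b1 : ∀ j ∈ T, BM (fun y => φ y * avm m 1 S (fun ω => h ω * f j ω) y) := fun j hj =>
      hφ.mul (H347.bm hG 1 (hh.mul (hf j hj)))
    rw [e3, cx_sum hw T (fun j hj => (BM.const _).mul ((b1 j hj).sub
      ((BM.const _).mul (hφ.mul bh)))) z]
    refine Finset.sum_congr rfl fun j hj => ?_
    rw [cx_const_mul hw, cx_sub hw (b1 j hj) ((BM.const _).mul (hφ.mul bh)), cx_const_mul hw, sq]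
  rw [e1]
  have bhY := H347.bm hG 1 (hh.mul bY)
  refine (cx_sq_le hw (hφ.mul bhY) z).trans ?_
  rw [← cx_const_mul hw]
  refine cx_mono hw (BM.sq' (hφ.mul bhY))
    ((BM.const _).mul (H347.bm hG 1 (bY.pow 2))) (fun y => ?_) z
  show (φ y * avm m 1 S (fun ω => h ω * Y ω) y) ^ 2 ≤ _
  rw [mul_pow, mul_pow, mul_assoc]
  refine mul_le_mul ?_ ?_ (sq_nonneg _) (sq_nonneg _)
  · rw [← sq_abs]
    exact pow_le_pow_left₀ (abs_nonneg _) (hC0 y) 2
  · refine (hG.av_sq_le 1 (hh.mul bY) y).trans ?_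
    rw [← H196.av_mul]
    refine hG.av_mono 1 ((hh.mul bY).pow 2) ((bY.pow 2).const_mul _) (fun ω => ?_) y
    rw [mul_pow]
    refine mul_le_mul_of_nonneg_right ?_ (sq_nonneg _)
    rw [← sq_abs]
    exact pow_le_pow_left₀ (abs_nonneg _) (hC1 ω) 2

/-- the case `φ = 1` -/
theorem slot1 (T : Finset J) (hf : ∀ j ∈ T, Bm (f j))
    (hh : Bm h) (hC1 : ∀ ω, |h ω| ≤ C1) (z : ι → ℝ) :
    ∑ j ∈ T, (cx (g1 ι) K w (avm m 1 S (fun ω => h ω * f j ω)) z -
        cx (g1 ι) K w (avm m 1 S (f j)) z * cx (g1 ι) K w (avm m 1 S h) z) ^ 2 ≤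
      C1 ^ 2 * √(rkc m S K w T f z) := by
  have h1 := slot (K := K) hG hw T hf (φ := fun _ => 1) (C0 := 1) (BM.const 1) (fun _ => by simp)
    hh hC1 z
  simpa only [one_mul] using h1

end gibbs

/-! ### the gradients -/

section grad

variable {ι : Type} [Fintype ι] [DecidableEq ι] {Ω : Type} [MeasurableSpace Ω]

/-- the gradient of the logarithm of the marginal weight, divided by `x` -/
noncomputable def gu (m : Measure Ω) (S : ι → Ω → ℝ) (K : Finset ι) (w : (ι → ℝ) → ℝ) (e : ι) :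
    (ι → ℝ) → ℝ :=
  cx (g1 ι) K w (avm m 1 S (S e))

/-- the gradient of `cx K w ⟨h⟩` -/
noncomputable def gN (m : Measure Ω) (S : ι → Ω → ℝ) (K : Finset ι) (w : (ι → ℝ) → ℝ) (x : ℝ)
    (h : Ω → ℝ) (e : ι) (z : ι → ℝ) : ℝ :=
  cx (g1 ι) K w (avm m 1 S (fun ω => h ω * S e ω)) z -
    (1 - x) * cx (g1 ι) K w (fun y => avm m 1 S h y * avm m 1 S (S e) y) z -
    x * (cx (g1 ι) K w (avm m 1 S h) z * cx (g1 ι) K w (avm m 1 S (S e)) z)

/-- the factor `U`: `h` and `h0` are `a s_0` and `s_0` -/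
noncomputable def Uf (m : Measure Ω) (S : ι → Ω → ℝ) (K : Finset ι) (w : (ι → ℝ) → ℝ) (x : ℝ)
    (h h0 : Ω → ℝ) (z : ι → ℝ) : ℝ :=
  1 - (1 - x) * cx (g1 ι) K w (fun y => avm m 1 S h y * avm m 1 S h0 y) z -
    x * cx (g1 ι) K w (avm m 1 S h) z ^ 2

variable {m : Measure Ω} {S : ι → Ω → ℝ} {M0 x : ℝ} {K : Finset ι} {h h0 : Ω → ℝ} {e : ι}

lemma dep_gu (K : Finset ι) (w : (ι → ℝ) → ℝ) (e : ι) : H646.Dep K (gu m S K w e) := dep_cx K

lemma dep_gN (K : Finset ι) (w : (ι → ℝ) → ℝ) (x : ℝ) (h : Ω → ℝ) (e : ι) :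
    H646.Dep K (gN m S K w x h e) := by
  intro z z'
  unfold gN
  rw [dep_cx K z z', dep_cx K z z', dep_cx K z z', dep_cx K z z']

lemma dep_Uf (K : Finset ι) (w : (ι → ℝ) → ℝ) (x : ℝ) (h h0 : Ω → ℝ) :
    H646.Dep K (Uf m S K w x h h0) := by
  intro z z'
  unfold Uf
  rw [dep_cx K z z', dep_cx K z z']

variable (hG : GM m S M0)
include hG

lemma bm_gu {w : (ι → ℝ) → ℝ} (hw : Wt (g1 ι) w) (K : Finset ι) (e : ι) : BM (gu m S K w e) :=
  hw.bm_cx K (H347.bm hG 1 (hG.bS e))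

lemma bm_gN {w : (ι → ℝ) → ℝ} (hw : Wt (g1 ι) w) (K : Finset ι) (x : ℝ) (hh : Bm h) (e : ι) :
    BM (gN m S K w x h e) :=
  ((hw.bm_cx K (H347.bm hG 1 (hh.mul (hG.bS e)))).sub ((BM.const _).mul
    (hw.bm_cx K ((H347.bm hG 1 hh).mul (H347.bm hG 1 (hG.bS e)))))).sub ((BM.const _).mul
    ((hw.bm_cx K (H347.bm hG 1 hh)).mul (hw.bm_cx K (H347.bm hG 1 (hG.bS e)))))

lemma bm_Uf {w : (ι → ℝ) → ℝ} (hw : Wt (g1 ι) w) (K : Finset ι) (x : ℝ) (hh : Bm h)
    (hh0 : Bm h0) : BM (Uf m S K w x h h0) :=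
  ((BM.const _).sub ((BM.const _).mul
    (hw.bm_cx K ((H347.bm hG 1 hh).mul (H347.bm hG 1 hh0))))).sub ((BM.const _).mul
    (BM.sq' (hw.bm_cx K (H347.bm hG 1 hh))))

/-- the derivative of the marginal weight -/
theorem pd_wnx (x : ℝ) (he : e ∈ K) : PD e (wn (g1 ι) K (Zxm m 1 S x))
    (fun z => x * (wn (g1 ι) K (Zxm m 1 S x) z * gu m S K (Zxm m 1 S x) e z)) := by
  have hw : Wt (g1 ι) (Zxm m 1 S x) := H347.wt hG 1 x
  have ew : EG (Zxm m 1 S x) := hG.eg_Zx 1 x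
  have eL : EG (fun y => x * (1 * avm m 1 S (S e) y)) :=
    ((hG.eg_av 1 (hG.bS e)).const_mul 1).const_mul x
  refine (pd_wn (K := K) he (H161.pd_Zx hG 1 x e) ew (ew.mul eL)).congr fun y => ?_
  show wn (g1 ι) K (fun z => Zxm m 1 S x z * (x * (1 * avm m 1 S (S e) z))) y =
    x * (wn (g1 ι) K (Zxm m 1 S x) y * cx (g1 ι) K (Zxm m 1 S x) (avm m 1 S (S e)) y)
  rw [wn_mul_cx hw]
  unfold wn
  rw [← integral_const_mul]
  congr 1
  funext z'
  ring

/-- the derivative of the conditional mean of a bracket -/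
theorem pd_N (x : ℝ) (he : e ∈ K) (hh : Bm h) :
    PD e (cx (g1 ι) K (Zxm m 1 S x) (avm m 1 S h)) (gN m S K (Zxm m 1 S x) x h e) := by
  have hw : Wt (g1 ι) (Zxm m 1 S x) := H347.wt hG 1 x
  have ew : EG (Zxm m 1 S x) := hG.eg_Zx 1 x
  have eL : EG (fun y => x * (1 * avm m 1 S (S e) y)) :=
    ((hG.eg_av 1 (hG.bS e)).const_mul 1).const_mul x
  have bh := H347.bm hG 1 hh
  have bS := H347.bm hG 1 (hG.bS e)
  have bhS := H347.bm hG 1 (hh.mul (hG.bS e))
  refine (pd_cx he hw (H161.pd_Zx hG 1 x e) ew eL (hG.pd_av 1 e hh) (hG.eg_av 1 hh)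
          (((hG.eg_av 1 (hh.mul (hG.bS e))).sub
            ((hG.eg_av 1 hh).mul (hG.eg_av 1 (hG.bS e)))).const_mul 1)).congr fun y => ?_
  unfold gN
  have e1 : cx (g1 ι) K (Zxm m 1 S x) (fun y => x * (1 * avm m 1 S (S e) y)) y =
      x * cx (g1 ι) K (Zxm m 1 S x) (avm m 1 S (S e)) y := by
    simp only [one_mul]
    exact cx_const_mul hw x y
  have e2 : (fun y => 1 * (avm m 1 S (fun ω => h ω * S e ω) y -
      avm m 1 S h y * avm m 1 S (S e) y) + avm m 1 S h y * (x * (1 * avm m 1 S (S e) y))) =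
      fun y => avm m 1 S (fun ω => h ω * S e ω) y -
        (1 - x) * (avm m 1 S h y * avm m 1 S (S e) y) := by
    funext y
    ring
  rw [e1, e2, cx_sub hw bhS ((BM.const _).mul (bh.mul bS)), cx_const_mul hw]
  ring

end grad

/-! ### the modulated SK system -/

/-- numerical step, density -/
lemma num_u {k c d r q M η : ℝ} (hc : |c| ≤ 1) (hr : |r| ≤ η) (hq : |q| ≤ η) (hM : |M| ≤ 2) :
    (k + c * (d + r) + q * M) ^ 2 ≤ 3 * (k ^ 2 + d ^ 2 + 9 * η ^ 2) := by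
  have h1 : (c * d) ^ 2 ≤ d ^ 2 := by
    rw [mul_pow]
    have : c ^ 2 ≤ 1 := by
      rw [← sq_abs]
      exact pow_le_one₀ (abs_nonneg _) hc
    nlinarith [sq_nonneg d]
  have h2 : |c * r + q * M| ≤ 3 * η := by
    refine (abs_add_le _ _).trans ?_
    rw [abs_mul, abs_mul]
    have h0 : 0 ≤ η := (abs_nonneg _).trans hr
    have h3 : |c| * |r| ≤ 1 * η := mul_le_mul hc hr (abs_nonneg _) zero_le_one
    have h4 : |q| * |M| ≤ η * 2 := mul_le_mul hq hM (abs_nonneg _) h0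
    linarith
  have h3 : (c * r + q * M) ^ 2 ≤ 9 * η ^ 2 := by
    rw [← sq_abs]
    have := pow_le_pow_left₀ (abs_nonneg _) h2 2
    linarith [this]
  nlinarith [sq_nonneg (k - c * d), sq_nonneg (k - (c * r + q * M)),
    sq_nonneg (c * d - (c * r + q * M))]

lemma sq_of_abs {A c d : ℝ} (h : |A| ≤ c * |d|) : A ^ 2 ≤ c ^ 2 * d ^ 2 := by
  have h1 := pow_le_pow_left₀ (abs_nonneg _) h 2
  rwa [mul_pow, sq_abs, sq_abs] at h1

lemma four_sq (A B C D : ℝ) : (A - B - C - D) ^ 2 ≤ 4 * (A ^ 2 + B ^ 2 + C ^ 2 + D ^ 2) := by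
  nlinarith [sq_nonneg (A + B), sq_nonneg (A + C), sq_nonneg (A + D), sq_nonneg (B - C),
    sq_nonneg (B - D), sq_nonneg (C - D)]

/-- numerical step, magnetisation -/
lemma num_N {x k c d r q N M V ρ η : ℝ} (hx0 : 0 ≤ x) (hx1 : x ≤ 1) (hc : |c| ≤ 1)
    (hr : |r| ≤ η) (hq : |q| ≤ η) (hM : |M| ≤ 2) (hN : |N| ≤ 2) (hV : |V| ≤ 2) :
    (d - (1 - x) * ρ - (1 - x) * V * (d + r) - x * N * k - x * N * (c * (d + r) + q * M)) ^ 2 ≤
      36 * d ^ 2 + 4 * ρ ^ 2 + 16 * k ^ 2 + 144 * η ^ 2 := by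
  have h0 : 0 ≤ η := (abs_nonneg _).trans hr
  have hVN : |(1 - x) * V + x * N * c| ≤ 2 := by
    refine (abs_add_le _ _).trans ?_
    rw [abs_mul, abs_mul, abs_mul, abs_of_nonneg hx0, abs_of_nonneg (by linarith : 0 ≤ 1 - x)]
    have h1 : (1 - x) * |V| ≤ (1 - x) * 2 := mul_le_mul_of_nonneg_left hV (by linarith)
    have h2 : |N| * |c| ≤ 2 * 1 := mul_le_mul hN hc (abs_nonneg _) (by norm_num)
    have h3 : x * |N| * |c| ≤ x * 2 := by
      rw [mul_assoc]
      exact mul_le_mul_of_nonneg_left (by linarith) hx0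
    linarith
  have a1 : |(1 - ((1 - x) * V + x * N * c)) * d| ≤ 3 * |d| := by
    rw [abs_mul]
    refine mul_le_mul_of_nonneg_right ?_ (abs_nonneg _)
    have h1 := abs_le.1 hVN
    rw [abs_le]
    constructor <;> linarith [h1.1, h1.2]
  have a2 : |(1 - x) * ρ| ≤ |ρ| := by
    rw [abs_mul, abs_of_nonneg (by linarith : 0 ≤ 1 - x)]
    nlinarith [abs_nonneg ρ]
  have a3 : |x * N * k| ≤ 2 * |k| := by
    rw [abs_mul, abs_mul, abs_of_nonneg hx0]
    refine mul_le_mul_of_nonneg_right ?_ (abs_nonneg _)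
    nlinarith [abs_nonneg N]
  have a4 : |((1 - x) * V + x * N * c) * r + x * N * (q * M)| ≤ 6 * η := by
    refine (abs_add_le _ _).trans ?_
    have h1 : |((1 - x) * V + x * N * c) * r| ≤ 2 * η := by
      rw [abs_mul]
      exact mul_le_mul hVN hr (abs_nonneg _) (by norm_num)
    have h2 : |x * N * (q * M)| ≤ 2 * (η * 2) := by
      rw [abs_mul, abs_mul q]
      refine mul_le_mul ?_ (mul_le_mul hq hM (abs_nonneg _) h0)
        (mul_nonneg (abs_nonneg _) (abs_nonneg _)) (by norm_num)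
      rw [abs_mul, abs_of_nonneg hx0]
      nlinarith [abs_nonneg N]
    linarith
  have e1 : d - (1 - x) * ρ - (1 - x) * V * (d + r) - x * N * k -
      x * N * (c * (d + r) + q * M) = (1 - ((1 - x) * V + x * N * c)) * d - (1 - x) * ρ -
      x * N * k - (((1 - x) * V + x * N * c) * r + x * N * (q * M)) := by ring
  rw [e1]
  have b1 := sq_of_abs a1
  have b2 := sq_of_abs (a2.trans_eq (one_mul _).symm)
  have b3 := sq_of_abs a3
  have b4 := sq_of_abs (a4.trans_eq (by rw [abs_of_nonneg h0]))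
  have b5 := four_sq ((1 - ((1 - x) * V + x * N * c)) * d) ((1 - x) * ρ) (x * N * k)
    (((1 - x) * V + x * N * c) * r + x * N * (q * M))
  linarith

section model

variable {n : ℕ} {LB LF : Type} [Fintype LB] [DecidableEq LB] [Fintype LF] [DecidableEq LF]
variable (b : ℝ) (cB : LB → ℝ) (cF : LF → ℝ) (s η : ℝ) {lam : ℝ} (c : ℝ)

/-- the row vector -/
noncomputable def aR (b : ℝ) (cB : LB → ℝ) (cF : LF → ℝ) (i0 : Fin n) (M : Fin n → ℝ) :
    Co n LB LF → ℝ :=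
  Sum.elim (Sum.elim (fun e => b / √n * cB e.2 * M (oth i0 e.1)) fun e => cF e.2) fun _ => 0

/-- the spins -/
def sg (n : ℕ) (j : Fin n) (ω : ℝ × Xs n) : ℝ := sp ω.2 j

/-- the modulated spins -/
noncomputable def asg (n : ℕ) (η : ℝ) (j : Fin n) (ω : ℝ × Xs n) : ℝ := al η ω.1 * sp ω.2 j

lemma bm_sg (j : Fin n) : Bm (sg n j) := bm_sp j

lemma abs_sg (j : Fin n) (ω : ℝ × Xs n) : |sg n j ω| ≤ 1 := (abs_sp ω.2 j).le

lemma bm_asg {η : ℝ} (hη : 0 ≤ η) (j : Fin n) : Bm (asg n η j) :=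
  (bm_of_al (n := n) hη).mul (bm_sp j)

lemma abs_asg {η : ℝ} (hη : 0 ≤ η) (j : Fin n) (ω : ℝ × Xs n) : |asg n η j ω| ≤ 1 + η := by
  have h1 := al_mem hη ω.1
  unfold asg
  rw [abs_mul, abs_sp, mul_one, abs_le]
  constructor <;> linarith [h1.1, h1.2]

variable {b cB cF s η c}
variable {S : Finset (Fin n)} {i0 : Fin n} {BL : Finset LB} {FL : Finset LF}
  {K : Finset (Co n LB LF)} {w : (Co n LB LF → ℝ) → ℝ}

/-- sums of squares over the row -/
lemma row_sq (hi : i0 ∉ S) (f : Co n LB LF → ℝ) (G : Fin n → ℝ) (G0 : ℝ)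
    (h1 : ∀ p ∈ row i0, oth i0 p ∈ S → ∀ l ∈ BL, f (bd LF p l) = b / √n * cB l * G (oth i0 p))
    (h2 : ∀ l ∈ FL, f (fd LB i0 l) = cF l * G0) :
    ∑ e ∈ Rw i0 S BL FL, f e ^ 2 = b ^ 2 / n * (∑ l ∈ BL, cB l ^ 2) * ∑ j ∈ S, G j ^ 2 +
      (∑ l ∈ FL, cF l ^ 2) * G0 ^ 2 := by
  rw [sum_Rw' hi _ (fun j l => b ^ 2 / n * cB l ^ 2 * G j ^ 2)]
  · congr 1
    · rw [Finset.mul_sum, Finset.mul_sum]
      refine Finset.sum_congr rfl fun j _ => ?_
      rw [Finset.sum_mul]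
    · rw [Finset.sum_mul]
      refine Finset.sum_congr rfl fun l hl => ?_
      rw [h2 l hl]
      ring
  · intro p hp hS l hl
    rw [h1 p hp hS l hl, ← div_sqrt_sq]
    ring

/-- the row density -/
theorem row_u (hi : i0 ∉ S) (M : Fin n → ℝ) (N : ℝ) (z : Co n LB LF → ℝ) :
    ∑ e ∈ Rw i0 S BL FL, (gu (muA (Xs n) lam η c) (Sm b cB cF s η) K w e z -
        N * aR b cB cF i0 M e) ^ 2 =
      b ^ 2 / n * (∑ l ∈ BL, cB l ^ 2) * ∑ j ∈ S,
        (cx (g1 _) K w (avm (muA (Xs n) lam η c) 1 (Sm b cB cF s η)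
          (fun ω => sg n i0 ω * sg n j ω)) z - N * M j) ^ 2 +
      (∑ l ∈ FL, cF l ^ 2) * (cx (g1 _) K w (avm (muA (Xs n) lam η c) 1 (Sm b cB cF s η)
          (sg n i0)) z - N) ^ 2 := by
  refine row_sq hi _ _ _ ?_ ?_
  · intro p hp _ l _
    have e1 : Sm b cB cF s η (bd LF p l) = fun ω : ℝ × Xs n =>
        (b / √n * cB l) * (sg n i0 ω * sg n (oth i0 p) ω) := by
      funext ω
      rw [Sm_bd b cB cF s η hp]
      rfl
    unfold gu
    rw [e1, cx_av_cmul]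
    show (b / √n * cB l) * _ - N * (b / √n * cB l * M (oth i0 p)) = _
    ring
  · intro l _
    have e1 : Sm b cB cF s η (fd LB i0 l) = fun ω : ℝ × Xs n => cF l * sg n i0 ω := by
      funext ω
      rw [Sm_fd]
      rfl
    unfold gu
    rw [e1, cx_av_cmul]
    show cF l * _ - N * cF l = _
    ring

/-- the row magnetisation -/
theorem row_N (hw : Wt (g1 _) w) (hi : i0 ∉ S) (x : ℝ) (M : Fin n → ℝ)
    (U : ℝ) (z : Co n LB LF → ℝ) :
    ∑ e ∈ Rw i0 S BL FL, (gN (muA (Xs n) lam η c) (Sm b cB cF s η) K w x (asg n η i0) e z -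
        U * aR b cB cF i0 M e) ^ 2 =
      b ^ 2 / n * (∑ l ∈ BL, cB l ^ 2) * ∑ j ∈ S,
        (cx (g1 _) K w (avm (muA (Xs n) lam η c) 1 (Sm b cB cF s η) (asg n η j)) z -
          (1 - x) * cx (g1 _) K w (fun y => avm (muA (Xs n) lam η c) 1 (Sm b cB cF s η)
            (asg n η i0) y * avm (muA (Xs n) lam η c) 1 (Sm b cB cF s η)
            (fun ω => sg n i0 ω * sg n j ω) y) z -
          x * (cx (g1 _) K w (avm (muA (Xs n) lam η c) 1 (Sm b cB cF s η) (asg n η i0)) z *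
            cx (g1 _) K w (avm (muA (Xs n) lam η c) 1 (Sm b cB cF s η)
            (fun ω => sg n i0 ω * sg n j ω)) z) - U * M j) ^ 2 +
      (∑ l ∈ FL, cF l ^ 2) * (cx (g1 _) K w (avm (muA (Xs n) lam η c) 1 (Sm b cB cF s η)
          (fun ω => al η ω.1)) z - (1 - x) * cx (g1 _) K w (fun y =>
            avm (muA (Xs n) lam η c) 1 (Sm b cB cF s η) (asg n η i0) y *
            avm (muA (Xs n) lam η c) 1 (Sm b cB cF s η) (sg n i0) y) z -
          x * (cx (g1 _) K w (avm (muA (Xs n) lam η c) 1 (Sm b cB cF s η) (asg n η i0)) z *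
            cx (g1 _) K w (avm (muA (Xs n) lam η c) 1 (Sm b cB cF s η) (sg n i0)) z) - U) ^ 2 := by
  refine row_sq hi _ _ _ ?_ ?_
  · intro p hp _ l _
    have e1 : Sm b cB cF s η (bd LF p l) = fun ω : ℝ × Xs n =>
        (b / √n * cB l) * (sg n i0 ω * sg n (oth i0 p) ω) := by
      funext ω
      rw [Sm_bd b cB cF s η hp]
      rfl
    have e2 : (fun ω : ℝ × Xs n => asg n η i0 ω *
        ((b / √n * cB l) * (sg n i0 ω * sg n (oth i0 p) ω))) =
        fun ω => (b / √n * cB l) * asg n η (oth i0 p) ω := by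
      funext ω
      unfold asg sg
      have := sp_mul_self ω.2 i0
      linear_combination (b / √n * cB l) * al η ω.1 * sp ω.2 (oth i0 p) * this
    have e3 : (fun y => avm (muA (Xs n) lam η c) 1 (Sm (LB := LB) (LF := LF) b cB cF s η)
        (asg n η i0) y * avm (muA (Xs n) lam η c) 1 (Sm b cB cF s η)
        (fun ω => (b / √n * cB l) * (sg n i0 ω * sg n (oth i0 p) ω)) y) =
        fun y => (b / √n * cB l) * (avm (muA (Xs n) lam η c) 1 (Sm b cB cF s η)
        (asg n η i0) y * avm (muA (Xs n) lam η c) 1 (Sm b cB cF s η)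
        (fun ω => sg n i0 ω * sg n (oth i0 p) ω) y) := by
      funext y
      rw [H196.av_mul]
      ring
    unfold gN
    rw [e1]
    simp only
    rw [e2, e3, cx_av_cmul, cx_av_cmul, cx_const_mul hw]
    show _ - U * (b / √n * cB l * M (oth i0 p)) = _
    ring
  · intro l _
    have e1 : Sm b cB cF s η (fd LB i0 l) = fun ω : ℝ × Xs n => cF l * sg n i0 ω := by
      funext ω
      rw [Sm_fd]
      rfl
    have e2 : (fun ω : ℝ × Xs n => asg n η i0 ω * (cF l * sg n i0 ω)) =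
        fun ω => cF l * (fun ω : ℝ × Xs n => al η ω.1) ω := by
      funext ω
      unfold asg sg
      have := sp_mul_self ω.2 i0
      linear_combination cF l * al η ω.1 * this
    have e3 : (fun y => avm (muA (Xs n) lam η c) 1 (Sm (LB := LB) (LF := LF) b cB cF s η)
        (asg n η i0) y * avm (muA (Xs n) lam η c) 1 (Sm b cB cF s η)
        (fun ω => cF l * sg n i0 ω) y) =
        fun y => cF l * (avm (muA (Xs n) lam η c) 1 (Sm b cB cF s η)
        (asg n η i0) y * avm (muA (Xs n) lam η c) 1 (Sm b cB cF s η) (sg n i0) y) := by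
      funext y
      rw [H196.av_mul]
      ring
    unfold gN
    rw [e1]
    simp only
    rw [e2, e3, cx_av_cmul, cx_av_cmul, cx_const_mul hw]
    show _ - U * cF l = _
    ring

/-- two close observables -/
lemma cx_close {ι : Type} [Fintype ι] [DecidableEq ι] {Ω : Type} [MeasurableSpace Ω]
    {m : Measure Ω} {S : ι → Ω → ℝ} {M0 : ℝ} (hG : GM m S M0) {w : (ι → ℝ) → ℝ}
    (hw : Wt (g1 ι) w) (K : Finset ι) {h h' : Ω → ℝ} (hh : Bm h) (hh' : Bm h') {r : ℝ}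
    (hr : ∀ ω, |h ω - h' ω| ≤ r) (z : ι → ℝ) :
    |cx (g1 ι) K w (avm m 1 S h) z - cx (g1 ι) K w (avm m 1 S h') z| ≤ r := by
  rw [← cx_sub hw (H347.bm hG 1 hh) (H347.bm hG 1 hh')]
  have e1 : (fun y => avm m 1 S h y - avm m 1 S h' y) = avm m 1 S (fun ω => h ω - h' ω) := by
    funext y
    rw [hG.av_sub 1 hh hh']
  rw [e1]
  exact hw.abs_cx_le K (H347.bm hG 1 (hh.sub hh')) (hG.abs_av_le 1 (hh.sub hh').1 hr) z

lemma cx_abs {ι : Type} [Fintype ι] [DecidableEq ι] {Ω : Type} [MeasurableSpace Ω]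
    {m : Measure Ω} {S : ι → Ω → ℝ} {M0 : ℝ} (hG : GM m S M0) {w : (ι → ℝ) → ℝ}
    (hw : Wt (g1 ι) w) (K : Finset ι) {h : Ω → ℝ} (hh : Bm h) {r : ℝ}
    (hr : ∀ ω, |h ω| ≤ r) (z : ι → ℝ) : |cx (g1 ι) K w (avm m 1 S h) z| ≤ r :=
  hw.abs_cx_le K (H347.bm hG 1 hh) (hG.abs_av_le 1 hh.1 hr) z

variable (b cB cF s c)

/-- **the row density, pointwise** -/
theorem pt_u (hl : 0 < lam) (hη : 0 ≤ η) (hw : Wt (g1 _) w) (hi : i0 ∉ S)
    {M : Fin n → ℝ} (hM : ∀ j ∈ S, |M j| ≤ 2) (z : Co n LB LF → ℝ) :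
    ∑ e ∈ Rw i0 S BL FL, (gu (muA (Xs n) lam η c) (Sm b cB cF s η) K w e z -
        cx (g1 _) K w (avm (muA (Xs n) lam η c) 1 (Sm b cB cF s η) (asg n η i0)) z *
          aR b cB cF i0 M e) ^ 2 ≤
      36 * (b ^ 2 / n * (∑ l ∈ BL, cB l ^ 2)) *
        (∑ j ∈ S, (cx (g1 _) K w (avm (muA (Xs n) lam η c) 1 (Sm b cB cF s η) (asg n η j)) z -
          M j) ^ 2 + √(rkc (muA (Xs n) lam η c) (Sm b cB cF s η) K w S (sg n) z) +
          4 * n * η ^ 2) + 9 * (∑ l ∈ FL, cF l ^ 2) * η ^ 2 := by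
  have hG := gmA (n := n) b cB cF s hl hη c
  rw [row_u hi]
  set m := muA (Xs n) lam η c with hm
  set E := Sm (LB := LB) (LF := LF) b cB cF s η with hE
  set T := ∑ l ∈ BL, cB l ^ 2 with hT
  set v := ∑ l ∈ FL, cF l ^ 2 with hv
  have hT0 : 0 ≤ T := Finset.sum_nonneg fun _ _ => sq_nonneg _
  have hv0 : 0 ≤ v := Finset.sum_nonneg fun _ _ => sq_nonneg _
  set C0 := cx (g1 _) K w (avm m 1 E (sg n i0)) z with hC0
  set N := cx (g1 _) K w (avm m 1 E (asg n η i0)) z with hN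
  have hsa : ∀ j ω, |sg n j ω - asg n η j ω| ≤ η := by
    intro j ω
    unfold sg asg
    have h1 := al_mem hη ω.1
    rw [show sp ω.2 j - al η ω.1 * sp ω.2 j = (1 - al η ω.1) * sp ω.2 j by ring, abs_mul, abs_sp,
      mul_one, abs_le]
    constructor <;> linarith [h1.1, h1.2]
  have hC0a : |C0| ≤ 1 := cx_abs hG hw K (bm_sg i0) (abs_sg i0) z
  have hq : |C0 - N| ≤ η := cx_close hG hw K (bm_sg i0) (bm_asg hη i0) (hsa i0) z
  have hk := slot1 (K := K) hG hw S (f := sg n) (fun j _ => bm_sg j) (bm_sg i0) (abs_sg i0) z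
  rw [one_pow, one_mul] at hk
  set R := √(rkc m E K w S (sg n) z) with hR
  have hR0 : 0 ≤ R := Real.sqrt_nonneg _
  set D := ∑ j ∈ S, (cx (g1 _) K w (avm m 1 E (asg n η j)) z - M j) ^ 2 with hD
  have hD0 : 0 ≤ D := Finset.sum_nonneg fun _ _ => sq_nonneg _
  have hS : (S.card : ℝ) ≤ n := by
    have := Finset.card_le_univ S
    rw [Fintype.card_fin] at this
    exact_mod_cast this
  have h1 : ∑ j ∈ S, (cx (g1 _) K w (avm m 1 E (fun ω => sg n i0 ω * sg n j ω)) z -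
      N * M j) ^ 2 ≤ 3 * (R + D + 9 * (n * η ^ 2)) := by
    have h2 : ∀ j ∈ S, (cx (g1 _) K w (avm m 1 E (fun ω => sg n i0 ω * sg n j ω)) z -
        N * M j) ^ 2 ≤ 3 * ((cx (g1 _) K w (avm m 1 E (fun ω => sg n i0 ω * sg n j ω)) z -
          cx (g1 _) K w (avm m 1 E (sg n j)) z * C0) ^ 2 +
          (cx (g1 _) K w (avm m 1 E (asg n η j)) z - M j) ^ 2 + 9 * η ^ 2) := by
      intro j hj
      have h3 := num_u (k := cx (g1 _) K w (avm m 1 E (fun ω => sg n i0 ω * sg n j ω)) z -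
          cx (g1 _) K w (avm m 1 E (sg n j)) z * C0)
        (d := cx (g1 _) K w (avm m 1 E (asg n η j)) z - M j) hC0a
        (cx_close hG hw K (bm_sg j) (bm_asg hη j) (hsa j) z) hq (hM j hj)
      refine le_trans (le_of_eq ?_) h3
      ring
    refine (Finset.sum_le_sum h2).trans ?_
    rw [← Finset.mul_sum, Finset.sum_add_distrib, Finset.sum_add_distrib, Finset.sum_const,
      nsmul_eq_mul]
    have h4 : (S.card : ℝ) * (9 * η ^ 2) ≤ 9 * (n * η ^ 2) := by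
      have := mul_le_mul_of_nonneg_right hS (sq_nonneg η)
      linarith
    linarith
  have h5 : (C0 - N) ^ 2 ≤ η ^ 2 := by
    rw [← sq_abs]
    exact pow_le_pow_left₀ (abs_nonneg _) hq 2
  have hτ : 0 ≤ b ^ 2 / n * T := by positivity
  have h6 := mul_le_mul_of_nonneg_left h1 hτ
  have h7 := mul_le_mul_of_nonneg_left h5 hv0
  have h8 : 3 * (R + D + 9 * (n * η ^ 2)) ≤ 36 * (D + R + 4 * n * η ^ 2) := by
    have : 0 ≤ (n : ℝ) * η ^ 2 := by positivity
    linarith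
  have h9 := mul_le_mul_of_nonneg_left h8 hτ
  have h10 : v * η ^ 2 ≤ 9 * v * η ^ 2 := by
    have : 0 ≤ v * η ^ 2 := by positivity
    linarith
  calc _ ≤ b ^ 2 / n * T * (36 * (D + R + 4 * n * η ^ 2)) + 9 * v * η ^ 2 := by linarith
    _ = _ := by ring

/-- **the row magnetisation, pointwise** -/
theorem pt_N (hl : 0 < lam) (hη : 0 ≤ η) (hη1 : η ≤ 1) {x : ℝ} (hx0 : 0 ≤ x) (hx1 : x ≤ 1)
    (hw : Wt (g1 _) w) (hi : i0 ∉ S)
    {M : Fin n → ℝ} (hM : ∀ j ∈ S, |M j| ≤ 2) (z : Co n LB LF → ℝ) :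
    ∑ e ∈ Rw i0 S BL FL, (gN (muA (Xs n) lam η c) (Sm b cB cF s η) K w x (asg n η i0) e z -
        Uf (muA (Xs n) lam η c) (Sm b cB cF s η) K w x (asg n η i0) (sg n i0) z *
          aR b cB cF i0 M e) ^ 2 ≤
      36 * (b ^ 2 / n * (∑ l ∈ BL, cB l ^ 2)) *
        (∑ j ∈ S, (cx (g1 _) K w (avm (muA (Xs n) lam η c) 1 (Sm b cB cF s η) (asg n η j)) z -
          M j) ^ 2 + √(rkc (muA (Xs n) lam η c) (Sm b cB cF s η) K w S (sg n) z) +
          4 * n * η ^ 2) + 9 * (∑ l ∈ FL, cF l ^ 2) * η ^ 2 := by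
  have hG := gmA (n := n) b cB cF s hl hη c
  rw [row_N hw hi]
  unfold Uf
  set m := muA (Xs n) lam η c with hm
  set E := Sm (LB := LB) (LF := LF) b cB cF s η with hE
  set T := ∑ l ∈ BL, cB l ^ 2 with hT
  set v := ∑ l ∈ FL, cF l ^ 2 with hv
  have hT0 : 0 ≤ T := Finset.sum_nonneg fun _ _ => sq_nonneg _
  have hv0 : 0 ≤ v := Finset.sum_nonneg fun _ _ => sq_nonneg _
  set C0 := cx (g1 _) K w (avm m 1 E (sg n i0)) z with hC0
  set N := cx (g1 _) K w (avm m 1 E (asg n η i0)) z with hN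
  set V := cx (g1 _) K w (fun y => avm m 1 E (asg n η i0) y * avm m 1 E (sg n i0) y) z with hV
  have hsa : ∀ j ω, |sg n j ω - asg n η j ω| ≤ η := by
    intro j ω
    unfold sg asg
    have h1 := al_mem hη ω.1
    rw [show sp ω.2 j - al η ω.1 * sp ω.2 j = (1 - al η ω.1) * sp ω.2 j by ring, abs_mul, abs_sp,
      mul_one, abs_le]
    constructor <;> linarith [h1.1, h1.2]
  have hC0a : |C0| ≤ 1 := cx_abs hG hw K (bm_sg i0) (abs_sg i0) z
  have hNa : |N| ≤ 2 := (cx_abs hG hw K (bm_asg hη i0) (abs_asg hη i0) z).trans (by linarith)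
  have bA := H347.bm hG 1 (bm_asg (n := n) hη i0)
  have bB := H347.bm hG 1 (bm_sg (n := n) i0)
  have hφ : ∀ y, |avm m 1 E (asg n η i0) y| ≤ 2 := fun y =>
    (hG.abs_av_le 1 (bm_asg hη i0).1 (abs_asg hη i0) y).trans (by linarith)
  have hVa : |V| ≤ 2 := by
    refine hw.abs_cx_le K (bA.mul bB) (fun y => ?_) z
    rw [abs_mul]
    have h1 := mul_le_mul (hφ y) (hG.abs_av_le 1 (bm_sg i0).1 (abs_sg i0) y) (abs_nonneg _)
      (by norm_num)
    linarith
  have hq : |C0 - N| ≤ η := cx_close hG hw K (bm_sg i0) (bm_asg hη i0) (hsa i0) z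
  have hk := slot1 (K := K) hG hw S (f := sg n) (fun j _ => bm_sg j) (bm_sg i0) (abs_sg i0) z
  have hρ := slot (K := K) hG hw S (f := sg n) (fun j _ => bm_sg j) bA hφ (bm_sg i0)
    (abs_sg i0) z
  rw [one_pow, one_mul] at hk
  set R := √(rkc m E K w S (sg n) z) with hR
  have hR0 : 0 ≤ R := Real.sqrt_nonneg _
  set D := ∑ j ∈ S, (cx (g1 _) K w (avm m 1 E (asg n η j)) z - M j) ^ 2 with hD
  have hD0 : 0 ≤ D := Finset.sum_nonneg fun _ _ => sq_nonneg _
  have hS : (S.card : ℝ) ≤ n := by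
    have := Finset.card_le_univ S
    rw [Fintype.card_fin] at this
    exact_mod_cast this
  set X : Fin n → ℝ := fun j => cx (g1 _) K w (fun y => avm m 1 E (asg n η i0) y *
    avm m 1 E (fun ω => sg n i0 ω * sg n j ω) y) z with hX
  set P : Fin n → ℝ := fun j => cx (g1 _) K w (avm m 1 E (fun ω => sg n i0 ω * sg n j ω)) z
    with hP
  set mu : Fin n → ℝ := fun j => cx (g1 _) K w (avm m 1 E (asg n η j)) z with hmu
  set ms : Fin n → ℝ := fun j => cx (g1 _) K w (avm m 1 E (sg n j)) z with hms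
  have h1 : ∑ j ∈ S, (mu j - (1 - x) * X j - x * (N * P j) -
      (1 - (1 - x) * V - x * N ^ 2) * M j) ^ 2 ≤ 36 * (D + R + 4 * n * η ^ 2) := by
    have h2 : ∀ j ∈ S, (mu j - (1 - x) * X j - x * (N * P j) -
        (1 - (1 - x) * V - x * N ^ 2) * M j) ^ 2 ≤ 36 * (mu j - M j) ^ 2 +
        4 * (X j - ms j * V) ^ 2 + 16 * (P j - ms j * C0) ^ 2 + 144 * η ^ 2 := by
      intro j hj
      have h3 := num_N (k := P j - ms j * C0) (d := mu j - M j) (ρ := X j - ms j * V) hx0 hx1 hC0a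
        (cx_close hG hw K (bm_sg j) (bm_asg hη j) (hsa j) z) hq (hM j hj) hNa hVa
      refine le_trans (le_of_eq ?_) h3
      ring
    refine (Finset.sum_le_sum h2).trans ?_
    rw [Finset.sum_add_distrib, Finset.sum_add_distrib, Finset.sum_add_distrib,
      ← Finset.mul_sum, ← Finset.mul_sum, ← Finset.mul_sum, Finset.sum_const, nsmul_eq_mul]
    have h4 : (S.card : ℝ) * (144 * η ^ 2) ≤ 144 * (n * η ^ 2) := by
      have := mul_le_mul_of_nonneg_right hS (sq_nonneg η)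
      linarith
    have hρ' : ∑ j ∈ S, (X j - ms j * V) ^ 2 ≤ (2 * 1) ^ 2 * R := hρ
    have hk' : ∑ j ∈ S, (P j - ms j * C0) ^ 2 ≤ R := hk
    have hD' : ∑ j ∈ S, (mu j - M j) ^ 2 = D := rfl
    rw [hD']
    linarith
  have h5 : (cx (g1 _) K w (avm m 1 E (fun ω => al η ω.1)) z - (1 - x) * V - x * (N * C0) -
      (1 - (1 - x) * V - x * N ^ 2)) ^ 2 ≤ 9 * η ^ 2 := by
    have h6 : |cx (g1 _) K w (avm m 1 E (fun ω : ℝ × Xs n => al η ω.1)) z - 1| ≤ η := by
      have h7 := cx_close hG hw K (bm_of_al (n := n) hη) (Bm.const (1 : ℝ)) (r := η)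
        (fun ω => by
          have h1 := al_mem hη ω.1
          rw [abs_le]
          constructor <;> linarith [h1.1, h1.2]) z
      have h8 : cx (g1 _) K w (avm m 1 E (fun _ : ℝ × Xs n => (1 : ℝ))) z = 1 := by
        have h9 : avm m 1 E (fun _ : ℝ × Xs n => (1 : ℝ)) = fun _ => 1 :=
          funext fun y => hG.av_one 1 y
        rw [h9]
        exact cx_one hw z
      rwa [h8] at h7
    have h7 : |x * N * (C0 - N)| ≤ 2 * η := by
      rw [abs_mul]
      refine mul_le_mul ?_ hq (abs_nonneg _) (by norm_num)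
      rw [abs_mul, abs_of_nonneg hx0]
      nlinarith [abs_nonneg N]
    have h8 : |cx (g1 _) K w (avm m 1 E (fun ω : ℝ × Xs n => al η ω.1)) z - 1 -
        x * N * (C0 - N)| ≤ 3 * |η| := by
      rw [abs_of_nonneg hη]
      refine (abs_sub _ _).trans ?_
      linarith
    have h9 := sq_of_abs h8
    refine le_trans (le_of_eq ?_) (h9.trans (le_of_eq (by ring)))
    ring
  have hτ : 0 ≤ b ^ 2 / n * T := by positivity
  have h6 := mul_le_mul_of_nonneg_left h1 hτ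
  have h7 := mul_le_mul_of_nonneg_left h5 hv0
  calc _ ≤ b ^ 2 / n * T * (36 * (D + R + 4 * n * η ^ 2)) + v * (9 * η ^ 2) := add_le_add h6 h7
    _ = _ := by ring

/-- Jensen for the square root -/
lemma ex_sqrt_le {κ : Type} [Fintype κ] [DecidableEq κ] {w Ψ : (κ → ℝ) → ℝ} (hw : Wt (g1 κ) w)
    (h : BM Ψ) (h0 : ∀ z, 0 ≤ Ψ z) : ex (g1 κ) w (fun z => √(Ψ z)) ≤ √(ex (g1 κ) w Ψ) := by
  have h1 := H487.ex_mul_le hw (BM.sqrt h) (BM.const (κ := κ) 1)
  have e1 : (fun z => √(Ψ z) ^ 2) = Ψ := funext fun z => Real.sq_sqrt (h0 z)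
  simp only [mul_one, one_pow, e1] at h1
  rw [H487.ex_one hw, Real.sqrt_one, mul_one] at h1
  exact (le_abs_self _).trans h1

lemma bm_aR {M : (Co n LB LF → ℝ) → Fin n → ℝ} (hM : ∀ j, BM (fun z => M z j))
    (e : Co n LB LF) : BM (fun z => aR b cB cF i0 (M z) e) := by
  rcases e with (⟨p, l⟩ | ⟨i, l⟩) | j
  · exact (BM.const (b / √n * cB l)).mul (hM (oth i0 p))
  · exact BM.const (cF l)
  · exact BM.const 0

/-- the right side in mean -/
lemma ex_rhs (hl : 0 < lam) (hη : 0 ≤ η) {w : (Co n LB LF → ℝ) → ℝ} (hw : Wt (g1 _) w)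
    {K K' : Finset (Co n LB LF)} (hK : K ⊆ K') {τ v' : ℝ} (hτ : 0 ≤ τ) :
    ex (g1 _) w (fun z => τ * (∑ j ∈ S, (cx (g1 _) K' w
        (avm (muA (Xs n) lam η c) 1 (Sm b cB cF s η) (asg n η j)) z -
        cx (g1 _) K w (avm (muA (Xs n) lam η c) 1 (Sm b cB cF s η) (asg n η j)) z) ^ 2 +
        √(rkc (muA (Xs n) lam η c) (Sm b cB cF s η) K' w S (sg n) z) +
          4 * n * η ^ 2) + v') ≤
      τ * (∑ j ∈ S, (ex (g1 _) w (fun z => cx (g1 _) K' w (Fa b cB cF s η lam c j) z ^ 2) -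
        ex (g1 _) w (fun z => cx (g1 _) K w (Fa b cB cF s η lam c j) z ^ 2)) +
        √(ex (g1 _) w (rkc (muA (Xs n) lam η c) (Sm b cB cF s η) K' w (insert i0 S) (sg n))) +
          4 * n * η ^ 2) + v' := by
  have hG := gmA (n := n) b cB cF s hl hη c
  have bA : ∀ j, BM (avm (muA (Xs n) lam η c) 1 (Sm b cB cF s η) (asg n η j)) := fun j =>
    H347.bm hG 1 (bm_asg (n := n) hη j)
  have bd : ∀ j ∈ S, BM (fun z => (cx (g1 _) K' w
        (avm (muA (Xs n) lam η c) 1 (Sm b cB cF s η) (asg n η j)) z -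
        cx (g1 _) K w (avm (muA (Xs n) lam η c) 1 (Sm b cB cF s η) (asg n η j)) z) ^ 2) :=
    fun j _ => BM.sq' ((hw.bm_cx K' (bA j)).sub (hw.bm_cx K (bA j)))
  have bD := BM.sum S bd
  have brk : BM (rkc (muA (Xs n) lam η c) (Sm b cB cF s η) K' w S (sg n)) :=
    bm_rkc hG hw S fun j _ => bm_sg j
  have brk' : BM (rkc (muA (Xs n) lam η c) (Sm b cB cF s η) K' w (insert i0 S) (sg n)) :=
    bm_rkc hG hw (insert i0 S) fun j _ => bm_sg j
  have bR := BM.sqrt brk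
  rw [H487.ex_add hw ((BM.const _).mul ((bD.add bR).add (BM.const _))) (BM.const _),
    H487.ex_const_mul, H487.ex_add hw (bD.add bR) (BM.const _), H487.ex_add hw bD bR,
    H487.ex_const hw, H487.ex_const hw, H487.ex_sum hw S bd]
  have e1 : ∀ j ∈ S, ex (g1 _) w (fun z => (cx (g1 _) K' w
        (avm (muA (Xs n) lam η c) 1 (Sm b cB cF s η) (asg n η j)) z -
        cx (g1 _) K w (avm (muA (Xs n) lam η c) 1 (Sm b cB cF s η) (asg n η j)) z) ^ 2) =
      ex (g1 _) w (fun z => cx (g1 _) K' w (Fa b cB cF s η lam c j) z ^ 2) -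
        ex (g1 _) w (fun z => cx (g1 _) K w (Fa b cB cF s η lam c j) z ^ 2) := fun j _ =>
    ex_sub_sq hw hK (bA j)
  rw [Finset.sum_congr rfl e1]
  have h1 := ex_sqrt_le hw brk fun z => rkc_nonneg S z
  have h2 : ex (g1 _) w (rkc (muA (Xs n) lam η c) (Sm b cB cF s η) K' w S (sg n)) ≤
      ex (g1 _) w (rkc (muA (Xs n) lam η c) (Sm b cB cF s η) K' w (insert i0 S) (sg n)) := by
    refine H487.ex_mono hw brk brk' fun z => ?_
    unfold rkc
    have hsub := Finset.subset_insert i0 S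
    refine (Finset.sum_le_sum fun i _ => Finset.sum_le_sum_of_subset_of_nonneg hsub
      fun _ _ _ => sq_nonneg _).trans ?_
    exact Finset.sum_le_sum_of_subset_of_nonneg hsub fun _ _ _ =>
      Finset.sum_nonneg fun _ _ => sq_nonneg _
  have h3 := h1.trans (Real.sqrt_le_sqrt h2)
  have h4 := mul_le_mul_of_nonneg_left h3 hτ
  linarith

variable (x : ℝ)

/-- **[X2], the row density**: `grad u = N a` up to rank one, one step and the amplitude. -/
theorem gradu_le (hl : 0 < lam) (hη : 0 ≤ η) (hη1 : η ≤ 1) (hi : i0 ∉ S)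
    (BL : Finset LB) (FL : Finset LF) :
    ex (g1 _) (Wx n b cB cF s η lam c x) (fun z => ∑ e ∈ Rw i0 S BL FL,
      (gu (muA (Xs n) lam η c) (Sm b cB cF s η) (Kset (insert i0 S) BL FL)
          (Wx n b cB cF s η lam c x) e z -
        cx (g1 _) (Kset (insert i0 S) BL FL) (Wx n b cB cF s η lam c x)
          (Fa b cB cF s η lam c i0) z *
          aR b cB cF i0 (fun j => cx (g1 _) (Kset S BL FL) (Wx n b cB cF s η lam c x)
            (Fa b cB cF s η lam c j) z) e) ^ 2) ≤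
      36 * (b ^ 2 / n * (∑ l ∈ BL, cB l ^ 2)) *
        (∑ j ∈ S, (ex (g1 _) (Wx n b cB cF s η lam c x)
            (fun z => cx (g1 _) (Kset (insert i0 S) BL FL) (Wx n b cB cF s η lam c x)
              (Fa b cB cF s η lam c j) z ^ 2) -
          ex (g1 _) (Wx n b cB cF s η lam c x)
            (fun z => cx (g1 _) (Kset S BL FL) (Wx n b cB cF s η lam c x)
              (Fa b cB cF s η lam c j) z ^ 2)) +
          √(ex (g1 _) (Wx n b cB cF s η lam c x) (rkc (muA (Xs n) lam η c) (Sm b cB cF s η)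
            (Kset (insert i0 S) BL FL) (Wx n b cB cF s η lam c x) (insert i0 S) (sg n))) +
          4 * n * η ^ 2) + 9 * (∑ l ∈ FL, cF l ^ 2) * η ^ 2 := by
  have hG := gmA (n := n) b cB cF s hl hη c
  have hw : Wt (g1 (Co n LB LF)) (Wx n b cB cF s η lam c x) := wtA b cB cF s hl hη c x
  have hKK : Kset S BL FL ⊆ Kset (LB := LB) (LF := LF) (insert i0 S) BL FL :=
    Kset_mono (Finset.subset_insert i0 S) (Finset.Subset.refl _) (Finset.Subset.refl _)
  have bF : ∀ j : Fin n, BM (Fa b cB cF s η lam c j) := bm_Fa b cB cF s η hl hη c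
  have hM : ∀ z, ∀ j ∈ S, |cx (g1 _) (Kset S BL FL) (Wx n b cB cF s η lam c x)
      (Fa b cB cF s η lam c j) z| ≤ 2 := fun z j _ =>
    (hw.abs_cx_le _ (bF j) (abs_Fa b cB cF s η hl hη c j) z).trans (by linarith)
  refine le_trans (H487.ex_mono hw ?_ ?_ fun z => pt_u b cB cF s c (BL := BL) (FL := FL)
    (K := Kset (insert i0 S) BL FL) hl hη hw hi (hM z) z)
    (ex_rhs b cB cF s c (K := Kset S BL FL) (i0 := i0) hl hη hw hKK (by positivity))
  · exact BM.sum _ fun e _ => BM.sq' ((bm_gu hG hw _ e).sub ((hw.bm_cx _ (bF i0)).mul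
      (bm_aR b cB cF (fun j => hw.bm_cx _ (bF j)) e)))
  · exact ((BM.const _).mul (((BM.sum S fun j _ => BM.sq' ((hw.bm_cx _ (bF j)).sub
      (hw.bm_cx _ (bF j)))).add (BM.sqrt (bm_rkc hG hw S fun j _ => bm_sg j))).add
        (BM.const _))).add (BM.const _)

/-- **[X2], the row magnetisation**: `grad N = U a` up to rank one, one step and the amplitude. -/
theorem gradN_le (hl : 0 < lam) (hη : 0 ≤ η) (hη1 : η ≤ 1) (hx0 : 0 ≤ x) (hx1 : x ≤ 1)
    (hi : i0 ∉ S) (BL : Finset LB) (FL : Finset LF) :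
    ex (g1 _) (Wx n b cB cF s η lam c x) (fun z => ∑ e ∈ Rw i0 S BL FL,
      (gN (muA (Xs n) lam η c) (Sm b cB cF s η) (Kset (insert i0 S) BL FL)
          (Wx n b cB cF s η lam c x) x (asg n η i0) e z -
        Uf (muA (Xs n) lam η c) (Sm b cB cF s η) (Kset (insert i0 S) BL FL)
          (Wx n b cB cF s η lam c x) x (asg n η i0) (sg n i0) z *
          aR b cB cF i0 (fun j => cx (g1 _) (Kset S BL FL) (Wx n b cB cF s η lam c x)
            (Fa b cB cF s η lam c j) z) e) ^ 2) ≤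
      36 * (b ^ 2 / n * (∑ l ∈ BL, cB l ^ 2)) *
        (∑ j ∈ S, (ex (g1 _) (Wx n b cB cF s η lam c x)
            (fun z => cx (g1 _) (Kset (insert i0 S) BL FL) (Wx n b cB cF s η lam c x)
              (Fa b cB cF s η lam c j) z ^ 2) -
          ex (g1 _) (Wx n b cB cF s η lam c x)
            (fun z => cx (g1 _) (Kset S BL FL) (Wx n b cB cF s η lam c x)
              (Fa b cB cF s η lam c j) z ^ 2)) +
          √(ex (g1 _) (Wx n b cB cF s η lam c x) (rkc (muA (Xs n) lam η c) (Sm b cB cF s η)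
            (Kset (insert i0 S) BL FL) (Wx n b cB cF s η lam c x) (insert i0 S) (sg n))) +
          4 * n * η ^ 2) + 9 * (∑ l ∈ FL, cF l ^ 2) * η ^ 2 := by
  have hG := gmA (n := n) b cB cF s hl hη c
  have hw : Wt (g1 (Co n LB LF)) (Wx n b cB cF s η lam c x) := wtA b cB cF s hl hη c x
  have hKK : Kset S BL FL ⊆ Kset (LB := LB) (LF := LF) (insert i0 S) BL FL :=
    Kset_mono (Finset.subset_insert i0 S) (Finset.Subset.refl _) (Finset.Subset.refl _)
  have bF : ∀ j : Fin n, BM (Fa b cB cF s η lam c j) := bm_Fa b cB cF s η hl hη c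
  have hM : ∀ z, ∀ j ∈ S, |cx (g1 _) (Kset S BL FL) (Wx n b cB cF s η lam c x)
      (Fa b cB cF s η lam c j) z| ≤ 2 := fun z j _ =>
    (hw.abs_cx_le _ (bF j) (abs_Fa b cB cF s η hl hη c j) z).trans (by linarith)
  refine le_trans (H487.ex_mono hw ?_ ?_ fun z => pt_N b cB cF s c (BL := BL) (FL := FL)
    (K := Kset (insert i0 S) BL FL) hl hη hη1 hx0 hx1 hw hi (hM z) z)
    (ex_rhs b cB cF s c (K := Kset S BL FL) (i0 := i0) hl hη hw hKK (by positivity))
  · exact BM.sum _ fun e _ => BM.sq' ((bm_gN hG hw _ x (bm_asg (n := n) hη i0) e).sub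
      ((bm_Uf hG hw _ x (bm_asg (n := n) hη i0) (bm_sg i0)).mul
      (bm_aR b cB cF (fun j => hw.bm_cx _ (bF j)) e)))
  · exact ((BM.const _).mul (((BM.sum S fun j _ => BM.sq' ((hw.bm_cx _ (bF j)).sub
      (hw.bm_cx _ (bF j)))).add (BM.sqrt (bm_rkc hG hw S fun j _ => bm_sg j))).add
        (BM.const _))).add (BM.const _)

end model

end Vale.Agent.P146.H875
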